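import Vale.Agent.P031.H577.Main

set_option linter.all false

namespace Vale.Agent.P031.H577

open Finset Filter Topology

theorem top_thm : Tendsto (fun x : ℝ => W (fun v : ℕ => ∃ P : ℕ, Top v P) x / V x) atTop (𝓝 1) := by
  have h1 := structure_thm 1 one_pos
  refine tendsto_of_tendsto_of_tendsto_of_le_of_le' h1 tendsto_const_nhds ?_ ?_
  · filter_upwards with x
    apply div_le_div_of_nonneg_right _ (V_nonneg x)
    exact W_mono (fun v ⟨P, hP, _⟩ => ⟨P, hP⟩) x
  · filter_upwards [eventually_ge_atTop 1] with x hx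
    rw [div_le_one (V_pos hx)]
    exact W_le_V _ x

/-- the largest prime of the preimages in a set of primes of relative density `δ` -/
theorem dens_thm (S : Set ℕ) (δ : ℝ)
    (hS : Tendsto (fun y : ℝ => pi S y / pi Set.univ y) atTop (𝓝 δ)) (c : ℝ) (hc : 0 < c) :
    Tendsto (fun x : ℝ => W (fun v : ℕ => ∃ P : ℕ, Top v P ∧ P ∈ S) (c * x) / V x)
      atTop (𝓝 (c * δ)) := by
  have h1 : Tendsto (fun x : ℝ => c * δ * (W (fun v : ℕ => ∃ P : ℕ, Top v P) x / V x))
      atTop (𝓝 (c * δ * 1)) := top_thm.const_mul _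
  rw [mul_one] at h1
  have h2 : Tendsto (fun x : ℝ => W (fun v : ℕ => ∃ P : ℕ, Top v P ∧ P ∈ S) (c * x) / V x -
      c * δ * (W (fun v : ℕ => ∃ P : ℕ, Top v P) x / V x)) atTop (𝓝 0) := by
    rw [Metric.tendsto_atTop]
    intro ε hε
    have h3 := (indep_thm S δ hS c hc (ε / 2) (by positivity)).and (eventually_ge_atTop 1)
    obtain ⟨x₀, hx₀⟩ := eventually_atTop.1 h3
    refine ⟨x₀, fun x hx => ?_⟩
    obtain ⟨h4, h5⟩ := hx₀ x hx
    have h6 := h4 Set.univ
    simp only [Set.mem_univ, and_true] at h6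
    have hV := V_pos h5
    rw [Real.dist_eq, sub_zero]
    have e : W (fun v : ℕ => ∃ P : ℕ, Top v P ∧ P ∈ S) (c * x) / V x -
        c * δ * (W (fun v : ℕ => ∃ P : ℕ, Top v P) x / V x) =
        (W (fun v : ℕ => ∃ P : ℕ, Top v P ∧ P ∈ S) (c * x) -
        c * δ * W (fun v : ℕ => ∃ P : ℕ, Top v P) x) / V x := by ring
    rw [e, abs_div, abs_of_pos hV, div_lt_iff₀ hV]
    have : 0 < ε * V x := by positivity
    linarith
  have h3 := h2.add h1
  rw [zero_add] at h3
  refine h3.congr fun x => by ring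

/-- primes in residue classes have relative density `1/φ(q)` -/
theorem pi_ap (q a : ℕ) (hq : 1 ≤ q) (ha : Nat.Coprime a q) :
    Tendsto (fun y : ℝ => pi {p : ℕ | p ≡ a [MOD q]} y / pi Set.univ y) atTop
      (𝓝 ((q.totient : ℝ)⁻¹)) := by
  haveI : NeZero q := ⟨by omega⟩
  have hu : IsUnit ((a : ℕ) : ZMod q) := (ZMod.isUnit_iff_coprime a q).2 ha
  have h1 := Vale.Agent.PNT.piAP_mul_log_div_tendsto hu
  have h2 := Vale.Agent.PNT.primeCounting_mul_log_div_tendsto
  have h3 := h1.div h2 one_ne_zero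
  rw [div_one] at h3
  refine h3.congr' ?_
  filter_upwards [eventually_ge_atTop 2] with y hy
  have hl : 0 < Real.log y := Real.log_pos (by linarith)
  have hy0 : 0 < y := by linarith
  have e1 : pi {p : ℕ | p ≡ a [MOD q]} y = (Vale.Agent.PNT.piAP ((a : ℕ) : ZMod q) y : ℝ) := by
    unfold pi Vale.Agent.PNT.piAP
    rw [← Set.ncard_coe_finset]
    congr 2
    ext p
    simp only [Set.mem_setOf_eq, coe_filter, Finset.mem_Icc]
    rw [← Nat.le_floor_iff hy0.le, ZMod.natCast_eq_natCast_iff]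
    constructor
    · rintro ⟨g1, g2, g3⟩
      exact ⟨⟨g1.one_lt.le, g2⟩, g1, g3⟩
    · rintro ⟨⟨g1, g2⟩, g3, g4⟩
      exact ⟨g3, g2, g4⟩
  rw [e1, pi_univ hy0.le]
  simp only [Pi.div_apply]
  field_simp

/-- the largest prime of the preimages is equidistributed in residue classes -/
theorem ap_thm (q a : ℕ) (hq : 1 ≤ q) (ha : Nat.Coprime a q) (c : ℝ) (hc : 0 < c) :
    Tendsto (fun x : ℝ => W (fun v : ℕ => ∃ P : ℕ, Top v P ∧ P ≡ a [MOD q]) (c * x) / V x)
      atTop (𝓝 (c / (q.totient : ℝ))) := by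
  have := dens_thm {p : ℕ | p ≡ a [MOD q]} _ (pi_ap q a hq ha) c hc
  rw [← div_eq_mul_inv] at this
  exact this

end Vale.Agent.P031.H577
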