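import Mathlib

/-!
# P031 / H577: definitions
-/

namespace Vale.Agent.P031.H577

/-- `v` is a value of Euler's totient function. -/
def Tot (v : ℕ) : Prop := ∃ n : ℕ, 1 ≤ n ∧ Nat.totient n = v

/-- `P` is a prime which is the largest prime factor of **every** `n ≥ 1` with `φ(n) = v`, and which
divides every such `n` exactly once. -/
def Top (v P : ℕ) : Prop :=
  P.Prime ∧ ∀ n : ℕ, 1 ≤ n → Nat.totient n = v →
    P ∣ n ∧ ¬ P ^ 2 ∣ n ∧ ∀ r : ℕ, r.Prime → r ∣ n → r ≤ P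

/-- The number of totient values `v ≤ x` with the property `Q`. -/
noncomputable def W (Q : ℕ → Prop) (x : ℝ) : ℝ :=
  (Set.ncard {v : ℕ | Tot v ∧ (v : ℝ) ≤ x ∧ Q v} : ℝ)

/-- The number of all totient values `v ≤ x`. -/
noncomputable def V (x : ℝ) : ℝ := (Set.ncard {v : ℕ | Tot v ∧ (v : ℝ) ≤ x} : ℝ)

/-- The number of primes `p ≤ x` with `p ∈ S`. -/
noncomputable def pi (S : Set ℕ) (x : ℝ) : ℝ :=
  (Set.ncard {p : ℕ | p.Prime ∧ (p : ℝ) ≤ x ∧ p ∈ S} : ℝ)

/-- The number of `n ≥ 1`, `n ∈ T`, with `φ(n) = v`. -/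
noncomputable def preim (T : Set ℕ) (v : ℕ) : ℕ := Set.ncard {n : ℕ | 1 ≤ n ∧ Nat.totient n = v ∧ n ∈ T}

/-- Membership in `T` is not changed by multiplication by a large new prime (examples: all integers,
odd integers, squarefree integers, integers coprime to a given number). -/
def Stable (T : Set ℕ) : Prop :=
  ∃ B : ℕ, ∀ p m : ℕ, p.Prime → B ≤ p → 1 ≤ m → ¬ p ∣ m → (p * m ∈ T ↔ m ∈ T)

end Vale.Agent.P031.H577
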