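import Vale.Agent.P031.H577.Dec
import Vale.Agent.P031.H577.Defs

set_option linter.all false

/-!
# P031 / H577: almost all pairs `(p, D)` give a totient all of whose preimages have the largest
prime factor `p`
-/

namespace Vale.Agent.P031.H577

open Finset Filter Topology Vale.Agent.P031.ThinM

theorem goodPre_top {M n n' p : ℕ} {L : List ℕ} (hn' : Small M n')
    (hL : ∀ q ∈ p :: L, Nrm M q) (hp : (p :: L).Pairwise (· > ·))
    (hn : n = (p :: L).prod * n') :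
    p ∣ n ∧ ¬ p ^ 2 ∣ n ∧ ∀ r : ℕ, r.Prime → r ∣ n → r ≤ p := by
  have hpp : p.Prime := (hL p (by simp)).big.1
  have hpB : Big M p := (hL p (by simp)).big
  rw [List.pairwise_cons] at hp
  have hn2 : n = p * (L.prod * n') := by rw [hn, List.prod_cons, mul_assoc]
  have hle : ∀ r : ℕ, r.Prime → r ∣ L.prod → r ∈ L := by
    intro r hr hd
    obtain ⟨a, ha, hra⟩ := (Prime.dvd_prod_iff hr.prime).mp hd
    have : r = a := (Nat.prime_dvd_prime_iff_eq hr (hL a (by simp [ha])).big.1).mp hra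
    rwa [this]
  refine ⟨⟨_, hn2⟩, ?_, ?_⟩
  · intro h2
    rw [hn2, pow_two] at h2
    have h3 : p ∣ L.prod * n' := (Nat.mul_dvd_mul_iff_left hpp.pos).1 h2
    rcases (Nat.Prime.dvd_mul hpp).1 h3 with h4 | h4
    · exact lt_irrefl _ (hp.1 p (hle p hpp h4))
    · exact hn'.2 p h4 hpB
  · intro r hr hrn
    rw [hn2] at hrn
    rcases (Nat.Prime.dvd_mul hr).1 hrn with h4 | h4
    · exact Nat.le_of_dvd hpp.pos h4
    rcases (Nat.Prime.dvd_mul hr).1 h4 with h5 | h5
    · exact (hp.1 r (hle r hr h5)).le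
    · by_contra hc
      push Not at hc
      exact hn'.2 r h5 (Big_of_le hpB hr hc.le)

theorem goodPre_rep {M n n' v p : ℕ} {L : List ℕ} (hn' : Small M n')
    (hL : ∀ q ∈ p :: L, Nrm M q) (hp : (p :: L).Pairwise (· > ·))
    (hv : v = vl (p :: L) (Nat.totient n')) (hlen : (p :: L).length ≤ M) :
    ∃ q : Finset ℕ × ℕ, Rep M q.1 q.2 v ∧ p ∈ q.1 ∧ ∀ t ∈ q.1, t ≤ p := by
  have hnd : (p :: L).Nodup := hp.imp (fun h => h.ne')
  refine ⟨((p :: L).toFinset, Nat.totient n'), ⟨?_, ?_, Small_totient hn', ?_⟩, by simp, ?_⟩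
  · intro q hq
    exact (hL q (List.mem_toFinset.1 hq)).big
  · have := List.toFinset_card_le (p :: L)
    show (p :: L).toFinset.card ≤ 2 * M
    omega
  · show v = (∏ p ∈ (p :: L).toFinset, (p - 1)) * Nat.totient n'
    rw [List.prod_toFinset _ hnd, hv]
    rfl
  · intro t ht
    have h1 := List.mem_toFinset.1 ht
    rw [List.pairwise_cons] at hp
    rcases List.mem_cons.1 h1 with h | h
    · exact h.le
    · exact (hp.1 t h).le

/-! ### the pairs -/

/-- primes `p ≤ ⌊x / D⌋ + 1` -/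
noncomputable def Prm (x : ℝ) (D : ℕ) : Finset ℕ := (Finset.range (⌊x / (D : ℝ)⌋₊ + 2)).filter Nat.Prime

theorem mem_Prm {x : ℝ} {D p : ℕ} : p ∈ Prm x D ↔ p < ⌊x / (D : ℝ)⌋₊ + 2 ∧ p.Prime := by
  unfold Prm
  rw [mem_filter, mem_range]

theorem card_Prm (x : ℝ) (D : ℕ) :
    (Prm x D).card = Nat.primeCounting (⌊x / (D : ℝ)⌋₊ + 1) := by
  rw [VLow.primeCounting_eq_card]
  rfl

/-- The pairs `(p, D)`, `D ∈ F`, `p` prime, `p ≤ ⌊x / D⌋ + 1`. -/
noncomputable def Prs (F : Finset ℕ) (x : ℝ) : Finset (ℕ × ℕ) :=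
  F.biUnion fun D => (Prm x D).image fun p => (p, D)

theorem mem_Prs {F : Finset ℕ} {x : ℝ} {a : ℕ × ℕ} :
    a ∈ Prs F x ↔ a.2 ∈ F ∧ a.1 ∈ Prm x a.2 := by
  unfold Prs
  simp only [mem_biUnion, mem_image]
  constructor
  · rintro ⟨D, hD, p, hp, rfl⟩
    exact ⟨hD, hp⟩
  · rintro ⟨h1, h2⟩
    exact ⟨a.2, h1, a.1, h2, rfl⟩

theorem card_Prs_filter (F : Finset ℕ) (x : ℝ) (Q : ℕ × ℕ → Prop) [DecidablePred Q] :
    ((Prs F x).filter Q).card = ∑ D ∈ F, ((Prm x D).filter (fun p => Q (p, D))).card := by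
  classical
  rw [Finset.card_eq_sum_card_fiberwise (f := Prod.snd) (t := F)]
  · refine Finset.sum_congr rfl fun D hD => ?_
    refine Finset.card_bij (fun a _ => a.1) ?_ ?_ ?_
    · intro a ha
      simp only [mem_filter, mem_Prs] at ha ⊢
      obtain ⟨⟨⟨h1, h2⟩, h3⟩, h4⟩ := ha
      subst h4
      exact ⟨h2, h3⟩
    · intro a ha b hb hab
      simp only [mem_filter, mem_Prs] at ha hb
      exact Prod.ext hab (ha.2.trans hb.2.symm)
    · intro p hp
      simp only [mem_filter] at hp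
      refine ⟨(p, D), ?_, rfl⟩
      simp only [mem_filter, mem_Prs]
      exact ⟨⟨⟨hD, hp.1⟩, hp.2⟩, trivial⟩
  · intro a ha
    simp only [coe_filter, Set.mem_setOf_eq, mem_Prs] at ha
    exact ha.1.1

theorem card_Prs (F : Finset ℕ) (x : ℝ) :
    ((Prs F x).card : ℝ) = ∑ D ∈ F, (Nat.primeCounting (⌊x / (D : ℝ)⌋₊ + 1) : ℝ) := by
  classical
  have h := card_Prs_filter F x (fun _ => True)
  simp only [Finset.filter_true] at h
  rw [h]
  push_cast
  exact Finset.sum_congr rfl fun D _ => by rw [card_Prm]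

end Vale.Agent.P031.H577
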