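import Vale.Agent.P031.Bdl.B2

set_option linter.all false

/-!
# P031 / H577: totients with at least one exceptional preimage are rare

Variants of `exists_list`, `decomp` and `th_of` in which one *preimage* is followed.
-/

namespace Vale.Agent.P031.H577

open Finset Filter Topology Vale.Agent.P031.ThinM

/-- `n` is a product of at most `M` distinct normal big primes and a number without big primes -/
def GoodPre (M n : ℕ) : Prop :=
  ∃ (L : List ℕ) (n' : ℕ), Small M n' ∧ (∀ p ∈ L, Nrm M p) ∧ L.Pairwise (· > ·) ∧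
    n = L.prod * n' ∧ Nat.totient n = vl L (Nat.totient n') ∧ L.length ≤ M

theorem exists_list' (M : ℕ) : ∀ n : ℕ, n ≠ 0 →
    (∀ p, Big M p → p ∣ n → Nrm M p ∧ ¬ p ^ 2 ∣ n) →
    ∃ (L : List ℕ) (n' : ℕ), Small M n' ∧ (∀ p ∈ L, Nrm M p ∧ p ∣ n) ∧ L.Pairwise (· > ·) ∧
      Nat.totient n = vl L (Nat.totient n') ∧ n = L.prod * n' := by
  classical
  intro n
  induction n using Nat.strong_induction_on with
  | _ n ih =>
    intro hn h
    by_cases hex : ∃ q, q ∣ n ∧ Big M q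
    · obtain ⟨q, hq, hqB⟩ := hex
      let S := n.primeFactors.filter (Big M)
      have hS : S.Nonempty := ⟨q, by
        rw [Finset.mem_filter, Nat.mem_primeFactors]
        exact ⟨⟨hqB.1, hq, hn⟩, hqB⟩⟩
      let p := S.max' hS
      have hpS : p ∈ S := S.max'_mem hS
      have hpS' := hpS
      rw [Finset.mem_filter, Nat.mem_primeFactors] at hpS'
      obtain ⟨⟨hpp, hpn, -⟩, hpB⟩ := hpS'
      have hmax : ∀ r, Big M r → r ∣ n → r ≤ p := by
        intro r hr hrn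
        apply S.le_max'
        rw [Finset.mem_filter, Nat.mem_primeFactors]
        exact ⟨⟨hr.1, hrn, hn⟩, hr⟩
      obtain ⟨hNp, hsqp⟩ := h p hpB hpn
      obtain ⟨m, hm⟩ := hpn
      have hpm : ¬ p ∣ m := by
        rintro ⟨c, hc⟩
        apply hsqp
        exact ⟨c, by rw [hm, hc]; ring⟩
      have hm0 : m ≠ 0 := by
        rintro rfl
        exact hn (by rw [hm]; simp)
      have hmn : m < n := by
        rw [hm]
        have := hpp.two_le
        have : 0 < m := Nat.pos_of_ne_zero hm0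
        nlinarith
      have hmdvd : m ∣ n := ⟨p, by rw [hm]; ring⟩
      obtain ⟨L, n', h1, h2, h3, h4, h4'⟩ := ih m hmn hm0 (fun r hr hrm => by
        obtain ⟨h5, h6⟩ := h r hr (hrm.trans hmdvd)
        exact ⟨h5, fun h7 => h6 (h7.trans hmdvd)⟩)
      refine ⟨p :: L, n', h1, ?_, ?_, ?_, ?_⟩
      · intro r hr
        rcases List.mem_cons.mp hr with h5 | h5
        · subst h5
          exact ⟨hNp, ⟨m, hm⟩⟩
        · exact ⟨(h2 r h5).1, (h2 r h5).2.trans hmdvd⟩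
      · rw [List.pairwise_cons]
        refine ⟨?_, h3⟩
        intro r hr
        obtain ⟨h5, h6⟩ := h2 r hr
        have h7 := hmax r h5.big (h6.trans hmdvd)
        rcases Nat.lt_or_eq_of_le h7 with h8 | h8
        · exact h8
        · exact absurd (h8 ▸ h6) hpm
      · have hcop : Nat.Coprime p m := (Nat.Prime.coprime_iff_not_dvd hpp).mpr hpm
        rw [vl_cons, ← h4, hm, Nat.totient_mul hcop, Nat.totient_prime hpp]
      · rw [List.prod_cons, mul_assoc, ← h4', ← hm]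
    · push Not at hex
      exact ⟨[], n, ⟨hn, fun q hq => hex q hq⟩, by simp, by simp, by simp [vl_nil], by simp⟩

theorem decomp' (M : ℕ) (hM1 : 1 ≤ M) (z : ℝ) (hz : 9 ≤ z) (hzM : ll z ≤ 5 * (M : ℝ) ^ 20)
    (hdecay : (9 / 10 : ℝ) ^ (M / 3) * (5 * (M : ℝ) ^ 20 + 1) < (M : ℝ) ^ 15)
    (v n : ℕ) (hn1 : 1 ≤ n) (hnv : Nat.totient n = v) (hvz : (v : ℝ) ≤ z) (hbadn : ¬ GoodPre M n) :
    (v : ℝ) ≤ Real.sqrt z ∨ M ^ 25 + 1 ≤ Om v ∨ ¬ NoSq M v ∨
    (∃ p : ℕ, Real.exp (Real.exp ((M : ℝ) ^ 15)) ≤ p ∧ p * (p - 1) ∣ v) ∨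
    (∃ p d : ℕ, Big M p ∧ ¬ Nrm M p ∧ IsTot d ∧ v = (p - 1) * d) ∨
    (Real.sqrt z < v ∧ Om v ≤ M ^ 25 ∧ (M : ℝ) ^ 18 ≤ GG M v) ∨
    (Real.sqrt z < v ∧ Om v ≤ M ^ 25 ∧ Many M v) ∨
    (∃ p R k : ℕ, p.Prime ∧ k ≤ M ∧ R ∈ (stp (BigF M z))^[k] (BadF M z) ∧ v = (p - 1) * R ∧
      Real.log z ≤ 2 * (M : ℝ) ^ 25 * Real.log p) := by
  classical
  by_cases c0 : (v : ℝ) ≤ Real.sqrt z
  · left; exact c0
  by_cases c1 : M ^ 25 + 1 ≤ Om v
  · right; left; exact c1
  by_cases c2 : NoSq M v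
  swap
  · right; right; left; exact c2
  by_cases c3 : ∃ p : ℕ, Real.exp (Real.exp ((M : ℝ) ^ 15)) ≤ p ∧ p * (p - 1) ∣ v
  · right; right; right; left; exact c3
  by_cases c4 : ∃ p d : ℕ, Big M p ∧ ¬ Nrm M p ∧ IsTot d ∧ v = (p - 1) * d
  · right; right; right; right; left; exact c4
  right; right; right; right; right
  push Not at c0 c1
  have c1' : Om v ≤ M ^ 25 := by omega
  have hz0 : (0 : ℝ) < z := by linarith only [hz]
  have hlz : 0 < Real.log z := Real.log_pos (by linarith only [hz])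
  have hM0 : (1 : ℝ) ≤ M := by exact_mod_cast hM1
  have hv0 : v ≠ 0 := by
    have := Nat.totient_pos.2 hn1
    omega
  have hn0 : n ≠ 0 := by omega
  have hlist := exists_list' M n hn0 (by
    intro p hpB hpn
    have hpbig : Real.exp (Real.exp ((M : ℝ) ^ 15)) ≤ p := by
      have hlp : 0 < Real.log p := Real.log_pos (by exact_mod_cast hpB.1.one_lt)
      have h1 := hpB.2
      unfold ll at h1
      rw [Real.le_log_iff_exp_le hlp] at h1
      rwa [Real.le_log_iff_exp_le (by exact_mod_cast hpB.1.pos)] at h1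
    have hsq : ¬ p ^ 2 ∣ n := by
      intro h
      apply c3
      exact ⟨p, hpbig, by rw [← hnv]; exact totient_sq_dvd hpB.1 h⟩
    refine ⟨?_, hsq⟩
    by_contra hNrm
    apply c4
    obtain ⟨k, hk⟩ := hpn
    have hpk : ¬ p ∣ k := by
      rintro ⟨c, hc⟩
      exact hsq ⟨c, by rw [hk, hc]; ring⟩
    have hk0 : k ≠ 0 := by
      rintro rfl
      exact hn0 (by rw [hk]; simp)
    have hcop : Nat.Coprime p k := (Nat.Prime.coprime_iff_not_dvd hpB.1).mpr hpk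
    refine ⟨p, Nat.totient k, hpB, hNrm, ⟨k, Nat.pos_of_ne_zero hk0, rfl⟩, ?_⟩
    rw [← hnv, hk, Nat.totient_mul hcop, Nat.totient_prime hpB.1])
  obtain ⟨L, n', hn', hLN, hLp, hLv, hLprod⟩ := hlist
  have hLN' : ∀ p ∈ L, Nrm M p := fun p hp => (hLN p hp).1
  have hvL : v = vl L (Nat.totient n') := by rw [← hnv, hLv]
  -- sizes of the primes in `L`
  have hpdvd : ∀ p ∈ L, p - 1 ∣ v := by
    intro p hp
    rw [hvL]
    unfold vl
    apply Dvd.dvd.mul_right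
    exact List.dvd_prod (List.mem_map.mpr ⟨p, hp, rfl⟩)
  have hple : ∀ p ∈ L, p ≤ ⌊z⌋₊ + 1 := by
    intro p hp
    have h1 := Nat.le_of_dvd (Nat.pos_of_ne_zero hv0) (hpdvd p hp)
    have h2 : v ≤ ⌊z⌋₊ := Nat.le_floor hvz
    omega
  have hpll : ∀ p ∈ L, ll (p : ℝ) ≤ 5 * (M : ℝ) ^ 20 + 1 := by
    intro p hp
    have h1 : (p : ℝ) ≤ z + 1 := by
      have h2 : (p : ℝ) ≤ (⌊z⌋₊ : ℝ) + 1 := by exact_mod_cast hple p hp
      have := Nat.floor_le hz0.le
      linarith only [this, h2]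
    have h3 : (1 : ℝ) < p := by exact_mod_cast (hLN' p hp).big.1.one_lt
    refine (ll_real_mono h3 h1).trans ?_
    have h4 : ll (z + 1) ≤ ll z + 1 := by
      unfold ll
      have h5 : Real.log (z + 1) ≤ Real.exp 1 * Real.log z := by
        have h6 : Real.log (z + 1) ≤ Real.log (z ^ 2) := Real.log_le_log (by linarith only [hz]) (by nlinarith only [hz])
        rw [Real.log_pow] at h6
        push_cast at h6
        have h7 : (2 : ℝ) ≤ Real.exp 1 := by
          have := Real.add_one_le_exp (1 : ℝ)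
          linarith only [this]
        linarith only [mul_nonneg (sub_nonneg.2 h7) (le_of_lt (sub_pos.2 hlz)), h6]
      have h8 : 0 < Real.log (z + 1) := Real.log_pos (by linarith only [hz])
      calc Real.log (Real.log (z + 1)) ≤ Real.log (Real.exp 1 * Real.log z) := Real.log_le_log h8 h5
        _ = Real.log (Real.log z) + 1 := by
          rw [Real.log_mul (Real.exp_pos 1).ne' hlz.ne', Real.log_exp]; ring
    linarith only [h4, hzM]
  -- the bad suffix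
  have hsuffix : ∃ A L' : List ℕ, L = A ++ L' ∧ A.length ≤ M ∧ L' ≠ [] ∧
      ((M : ℝ) ^ 18 ≤ GG M (vl L' (Nat.totient n')) ∨ Many M (vl L' (Nat.totient n'))) := by
    by_cases hlen : L.length ≤ M
    · exact absurd ⟨L, n', hn', hLN', hLp, hLprod, hLv, hlen⟩ hbadn
    · push Not at hlen
      rcases exists_slow ((M : ℝ) ^ 15) (M / 3) L (by omega) (fun p hp => (hLN' p hp).big.2) with
        ⟨A, q1, q2, q3, q4, L'', h1, h2, h3⟩ | h1
      · refine ⟨A, q1 :: q2 :: q3 :: q4 :: L'', h1, by omega, by simp, Or.inr ?_⟩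
        have hsub : ∀ q ∈ q1 :: q2 :: q3 :: q4 :: L'', q ∈ L := by
          intro q hq
          rw [h1]
          exact List.mem_append_right A hq
        have hN' : ∀ q ∈ q1 :: q2 :: q3 :: q4 :: L'', Nrm M q := fun q hq => hLN' q (hsub q hq)
        have hP' : (q1 :: q2 :: q3 :: q4 :: L'').Pairwise (· > ·) := by
          rw [h1] at hLp
          exact (List.pairwise_append.mp hLp).2.1
        refine ⟨Nat.pos_of_ne_zero (vl_ne_zero (fun q hq => (hN' q hq).two_le) (one_le_totient hn')),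
          q1, (hN' q1 (by simp)).big.2, hpll q1 (hsub q1 (by simp)), ?_, ?_⟩
        · exact Om_vl_four hn' hN' hP' h3 hM1
        · exact prime_le_head hn' hN' hP'
      · exfalso
        match L, hlen with
        | p :: L, _ =>
          simp only [List.headD_cons] at h1
          have h2 := hpll p (by simp)
          have h3 : (9 / 10 : ℝ) ^ (M / 3) * ll (p : ℝ) ≤
              (9 / 10 : ℝ) ^ (M / 3) * (5 * (M : ℝ) ^ 20 + 1) :=
            mul_le_mul_of_nonneg_left h2 (by positivity)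
          linarith only [h1, hdecay, h3]
  obtain ⟨A, L', hA, hAlen, hL', hbad⟩ := hsuffix
  have hvA : v = (A.map (fun p => p - 1)).prod * vl L' (Nat.totient n') := by
    rw [hvL, hA, vl_append]
  cases A with
  | nil =>
    have hvD : v = vl L' (Nat.totient n') := by simpa using hvA
    rw [← hvD] at hbad
    rcases hbad with h | h
    · left; exact ⟨c0, c1', h⟩
    · right; left; exact ⟨c0, c1', h⟩
  | cons p A =>
    right; right
    have hpL : p ∈ L := by rw [hA]; simp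
    have hDv : vl L' (Nat.totient n') ∣ v := by
      rw [hvA]
      exact Dvd.intro_left _ rfl
    have hD0 : vl L' (Nat.totient n') ≠ 0 := fun h => by
      rw [h] at hDv
      exact hv0 (Nat.eq_zero_of_zero_dvd hDv)
    have hDz : vl L' (Nat.totient n') ≤ ⌊z⌋₊ :=
      (Nat.le_of_dvd (Nat.pos_of_ne_zero hv0) hDv).trans (Nat.le_floor hvz)
    refine ⟨p, (A.map (fun p => p - 1)).prod * vl L' (Nat.totient n'), A.length,
      (hLN' p hpL).big.1, ?_, ?_, ?_, ?_⟩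
    · simp only [List.length_cons] at hAlen
      omega
    · apply mem_stp_iter
      · intro q hq
        have hqL : q ∈ L := by rw [hA]; simp [hq]
        unfold BigF
        rw [Finset.mem_filter, Finset.mem_range]
        have := hple q hqL
        exact ⟨by omega, (hLN' q hqL).big⟩
      · unfold BadF
        rw [Finset.mem_filter, Finset.mem_Icc]
        refine ⟨⟨Nat.pos_of_ne_zero hD0, hDz⟩, Nat.pos_of_ne_zero hD0,
          le_trans (by exact_mod_cast hDz) (Nat.floor_le hz0.le), ?_⟩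
        rcases hbad with h | h
        · left
          refine ⟨?_, h⟩
          have h1 := Om_le_of_dvd hv0 hDv
          have h2 : M ^ 25 ≤ M ^ 26 := Nat.pow_le_pow_right hM1 (by norm_num)
          omega
        · right; exact h
    · rw [hvA]
      simp [mul_assoc]
    · have hprimes : ∀ r : ℕ, r.Prime → r ∣ v → r ≤ p := by
        intro r hr hrv
        have hLe : L = p :: (A ++ L') := by rw [hA]; rfl
        rw [hvL, hLe] at hrv
        rw [hLe] at hLN' hLp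
        exact prime_le_head hn' hLN' hLp r hr hrv
      have h5 := log_le_Om_mul_log hv0 hprimes
      have h6 : 0 ≤ Real.log p := Real.log_natCast_nonneg p
      have hOm25 : (Om v : ℝ) ≤ (M : ℝ) ^ 25 := by exact_mod_cast c1'
      have h7 : (Om v : ℝ) * Real.log p ≤ (M : ℝ) ^ 25 * Real.log p :=
        mul_le_mul_of_nonneg_right hOm25 h6
      have hlogv : Real.log z / 2 ≤ Real.log v := by
        rw [← Real.log_sqrt hz0.le]
        exact Real.log_le_log (Real.sqrt_pos.mpr hz0) c0.le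
      linarith only [hlogv, h5, h7]

open Classical in
/-- Module `th` with the other modules as hypotheses. -/
theorem th_of'
    (sum_inv_le' : ∃ C : ℝ, 0 < C ∧ ∀ (b : ℝ) (s : Finset ℕ), 0 ≤ b →
      (∀ p ∈ s, p.Prime ∧ ll (p : ℝ) ≤ b) → ∑ p ∈ s, 1 / ((p : ℝ) - 1) ≤ b + C)
    (sum_pow_Om : ∀ (θ : ℝ), 0 ≤ θ → θ < 2 → ∃ C : ℝ, 0 < C ∧
      ∀ (z : ℝ) (s : Finset ℕ), 3 ≤ z →
      (∀ n ∈ s, 1 ≤ n ∧ ∀ q : ℕ, q.Prime → q ∣ n → (q : ℝ) ≤ z) →
      ∑ n ∈ s, θ ^ (Om n) / (n : ℝ) ≤ C * (Real.log z) ^ θ)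
    (om_large : ∃ C : ℝ, 0 < C ∧ ∀ (z : ℝ) (T : ℕ), 3 ≤ z →
      (((Finset.Icc 1 ⌊z⌋₊).filter (fun n => T ≤ Om n)).card : ℝ)
        ≤ C * z * (Real.log z) ^ 2 * (2 / 3 : ℝ) ^ T)
    (nosq_count : ∀ (M : ℕ), 1 ≤ M → ∀ (z : ℝ), 1 ≤ z →
      (((Finset.Icc 1 ⌊z⌋₊).filter (fun n => ¬ NoSq M n)).card : ℝ)
        ≤ 2 * z * Real.exp (-Real.exp ((M : ℝ) ^ 15)))
    (ub_mass : ∀ᶠ M : ℕ in atTop, ∀ (g z : ℝ) (s : Finset ℕ), ll z ≤ 5 * (M : ℝ) ^ 20 →
      (∀ n ∈ s, 1 ≤ n ∧ (n : ℝ) ≤ z ∧ Om n ≤ M ^ 26 ∧ g ≤ GG M n) →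
      ∑ n ∈ s, 1 / (n : ℝ) ≤ Real.exp (-g + (M : ℝ) ^ 16))
    (ub_count : ∀ᶠ M : ℕ in atTop, ∀ (g z : ℝ) (s : Finset ℕ), 3 ≤ z → (M : ℝ) ^ 16 ≤ ll z →
      ll z ≤ 5 * (M : ℝ) ^ 20 → g ≤ (M : ℝ) ^ 20 →
      (∀ n ∈ s, 1 ≤ n ∧ (n : ℝ) ≤ z ∧ Om n ≤ M ^ 26 ∧ g ≤ GG M n) →
      (s.card : ℝ) ≤ z / Real.log z * Real.exp (-g + (M : ℝ) ^ 17))
    (np_count : ∀ᶠ M : ℕ in atTop, ∀ (z : ℝ) (s : Finset ℕ), 3 ≤ z → ll z ≤ 5 * (M : ℝ) ^ 20 →
      (∀ p ∈ s, Big M p ∧ ¬ Nrm M p ∧ (p : ℝ) ≤ z) →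
      (s.card : ℝ) ≤ z / Real.log z * Real.exp (-(M : ℝ) ^ 4))
    (np_mass : ∀ᶠ M : ℕ in atTop, ∀ (s : Finset ℕ),
      (∀ p ∈ s, Big M p ∧ ¬ Nrm M p ∧ ll (p : ℝ) ≤ 5 * (M : ℝ) ^ 20) →
      ∑ p ∈ s, 1 / ((p : ℝ) - 1) ≤ Real.exp (-(M : ℝ) ^ 3))
    (cm : ∀ᶠ M : ℕ in atTop, ∀ (x : ℝ) (s : Finset ℕ), ll x ≤ 5 * (M : ℝ) ^ 20 →
      (∀ d ∈ s, IsTot d ∧ (d : ℝ) ≤ x) → ∑ d ∈ s, 1 / (d : ℝ) ≤ Real.exp (M : ℝ))
    (cmc : ∀ᶠ M : ℕ in atTop, ∀ z : ℝ, 3 ≤ z → (M : ℝ) ^ 14 ≤ ll z → ll z ≤ 5 * (M : ℝ) ^ 20 →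
      (V z : ℝ) ≤ z / Real.log z * Real.exp (2 * (M : ℝ))) :
    ∀ᶠ M : ℕ in atTop, ∀ (z : ℝ) (s : Finset ℕ), 3 ≤ z → (M : ℝ) ^ 16 ≤ ll z →
      ll z ≤ 5 * (M : ℝ) ^ 20 → (∀ v ∈ s, IsTot v ∧ (v : ℝ) ≤ z ∧
        ∃ n : ℕ, 1 ≤ n ∧ Nat.totient n = v ∧ ¬ GoodPre M n) →
      (s.card : ℝ) ≤ z / Real.log z * Real.exp (-(M : ℝ) ^ 2) := by
  obtain ⟨C1, hC1, hsum⟩ := sum_inv_le'
  obtain ⟨C2, hC2, hpow⟩ := sum_pow_Om (19 / 10) (by norm_num) (by norm_num)
  obtain ⟨C3, hC3, homl⟩ := om_large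
  filter_upwards [ev_num (C1 + C3), ub_mass, ub_count, np_count, np_mass, cm, cmc,
    mass_many C2 hpow hC2.le, count_many C2 hpow hC2.le] with M hN hubm hubc hnpc hnpm hcm hcmc
    hmm hcmany
  intro z s hz3 hzM hzM' hs
  have hM := hN.hM
  have hM1 : 1 ≤ M := by exact_mod_cast (show (1 : ℝ) ≤ (M : ℝ) by linarith)
  have hm0 : (0 : ℝ) < M := by linarith only [hM]
  have hlz3 : 0 < Real.log z := Real.log_pos (by linarith)
  have hllexp : Real.log z = Real.exp (ll z) := by unfold ll; rw [Real.exp_log hlz3]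
  have hll100 : (100 : ℝ) ≤ ll z := by
    have := hN.pow_le (a := 0) (b := 16) (by norm_num)
    rw [pow_zero] at this
    linarith
  have hz : 9 ≤ z := by
    have h1 := Real.add_one_le_exp (ll z)
    rw [← hllexp] at h1
    have h2 := Real.add_one_le_exp (Real.log z)
    rw [Real.exp_log (by linarith)] at h2
    linarith
  have hz0 : (0 : ℝ) < z := by linarith
  set W : ℝ := z / Real.log z * Real.exp (-2 * (M : ℝ) ^ 2) with hW
  have hzl : 0 ≤ z / Real.log z := by positivity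
  have hW0 : 0 ≤ W := by positivity
  have p1 := hN.pow_le (a := 0) (b := 1) (by norm_num)
  have p2 := hN.pow_le (a := 1) (b := 2) (by norm_num)
  have p3 := hN.pow_le (a := 2) (b := 3) (by norm_num)
  have p4 := hN.pow_le (a := 3) (b := 4) (by norm_num)
  have p14 := hN.pow_le (a := 4) (b := 14) (by norm_num)
  have p15 := hN.pow_le (a := 14) (b := 15) (by norm_num)
  have p17 := hN.pow_le (a := 15) (b := 16) (by norm_num)
  have p18 := hN.pow_le (a := 16) (b := 17) (by norm_num)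
  have p19 := hN.pow_le (a := 17) (b := 18) (by norm_num)
  have p20 := hN.pow_le (a := 18) (b := 20) (by norm_num)
  have p25 := hN.pow_le (a := 20) (b := 25) (by norm_num)
  rw [pow_zero, pow_one] at p1
  rw [pow_one] at p2
  have hexp15 : (M : ℝ) ^ 28 ≤ Real.exp ((M : ℝ) ^ 15) := by
    refine hN.e28.trans (Real.exp_le_exp.mpr ?_)
    linarith only [p2, p4, p14, p3, p15]
  have p28 := hN.pow_le (a := 25) (b := 28) (by norm_num)
  -- the classes
  let s0 := s.filter (fun v : ℕ => (v : ℝ) ≤ Real.sqrt z)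
  let s1 := s.filter (fun v : ℕ => M ^ 25 + 1 ≤ Om v)
  let s2 := s.filter (fun v : ℕ => ¬ NoSq M v)
  let s3 := s.filter (fun v : ℕ => ∃ p : ℕ, Real.exp (Real.exp ((M : ℝ) ^ 15)) ≤ p ∧ p * (p - 1) ∣ v)
  let s4a := s.filter (fun v : ℕ => ∃ p d : ℕ, Big M p ∧ ¬ Nrm M p ∧ IsTot d ∧
      (d : ℝ) ≤ Real.sqrt z ∧ v = (p - 1) * d)
  let s4b := s.filter (fun v : ℕ => ∃ p d : ℕ, Big M p ∧ ¬ Nrm M p ∧ IsTot d ∧
      Real.sqrt z < (d : ℝ) ∧ v = (p - 1) * d)
  let s5 := s.filter (fun v : ℕ => Real.sqrt z < v ∧ Om v ≤ M ^ 25 ∧ (M : ℝ) ^ 18 ≤ GG M v)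
  let s6 := s.filter (fun v : ℕ => Real.sqrt z < v ∧ Om v ≤ M ^ 25 ∧ Many M v)
  let s7 := s.filter (fun v : ℕ => ∃ p R k : ℕ, p.Prime ∧ k ≤ M ∧
      R ∈ (stp (BigF M z))^[k] (BadF M z) ∧ v = (p - 1) * R ∧
      Real.log z ≤ 2 * (M : ℝ) ^ 25 * Real.log p)
  have hsub : s ⊆ s0 ∪ (s1 ∪ (s2 ∪ (s3 ∪ (s4a ∪ (s4b ∪ (s5 ∪ (s6 ∪ s7))))))) := by
    intro v hv
    obtain ⟨h1, h2, n, hn1, hnv, hnb⟩ := hs v hv
    simp only [Finset.mem_union, s0, s1, s2, s3, s4a, s4b, s5, s6, s7, Finset.mem_filter, hv,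
      true_and]
    rcases decomp' M hM1 z hz hzM' hN.decay v n hn1 hnv h2 hnb with h | h | h | h | h | h | h | h
    · exact Or.inl h
    · exact Or.inr (Or.inl h)
    · exact Or.inr (Or.inr (Or.inl h))
    · exact Or.inr (Or.inr (Or.inr (Or.inl h)))
    · obtain ⟨p, d, g1, g2, g3, g4⟩ := h
      by_cases hd : (d : ℝ) ≤ Real.sqrt z
      · exact Or.inr (Or.inr (Or.inr (Or.inr (Or.inl ⟨p, d, g1, g2, g3, hd, g4⟩))))
      · push Not at hd
        exact Or.inr (Or.inr (Or.inr (Or.inr (Or.inr (Or.inl ⟨p, d, g1, g2, g3, hd, g4⟩)))))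
    · exact Or.inr (Or.inr (Or.inr (Or.inr (Or.inr (Or.inr (Or.inl h))))))
    · exact Or.inr (Or.inr (Or.inr (Or.inr (Or.inr (Or.inr (Or.inr (Or.inl h)))))))
    · exact Or.inr (Or.inr (Or.inr (Or.inr (Or.inr (Or.inr (Or.inr (Or.inr h)))))))
  -- bounds
  have b0 : (s0.card : ℝ) ≤ W := by
    have h1 : (s0.card : ℝ) ≤ Real.sqrt z := by
      have h2 : s0 ⊆ Finset.Icc 1 ⌊Real.sqrt z⌋₊ := by
        intro v hv
        rw [Finset.mem_filter] at hv
        rw [Finset.mem_Icc]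
        exact ⟨(hs v hv.1).1.pos, Nat.le_floor hv.2⟩
      calc (s0.card : ℝ) ≤ ((Finset.Icc 1 ⌊Real.sqrt z⌋₊).card : ℝ) := by
            exact_mod_cast Finset.card_le_card h2
        _ = (⌊Real.sqrt z⌋₊ : ℝ) := by simp
        _ ≤ Real.sqrt z := Nat.floor_le (Real.sqrt_nonneg z)
    exact h1.trans (hN.sqrt_le hz hzM)
  have b1 : (s1.card : ℝ) ≤ W := by
    have h1 : (s1.card : ℝ) ≤ C3 * z * (Real.log z) ^ 2 * (2 / 3 : ℝ) ^ (M ^ 25 + 1) := by
      refine le_trans ?_ (homl z (M ^ 25 + 1) hz3)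
      norm_cast
      apply Finset.card_le_card
      intro v hv
      rw [Finset.mem_filter] at hv
      rw [Finset.mem_filter, Finset.mem_Icc]
      exact ⟨⟨(hs v hv.1).1.pos, Nat.le_floor (hs v hv.1).2.1⟩, hv.2⟩
    refine h1.trans ?_
    have h2 : C3 ≤ Real.exp (M : ℝ) := by
      have := Real.add_one_le_exp (M : ℝ)
      have := hN.hC
      linarith
    have h3 : (Real.log z) ^ 2 = Real.exp (2 * ll z) := by
      rw [hllexp, ← Real.exp_nat_mul]
      congr 1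
    have h4 : (2 / 3 : ℝ) ^ (M ^ 25 + 1) ≤ Real.exp (-((M : ℝ) ^ 25) / 3) := by
      refine (two_thirds_pow _).trans ?_
      apply Real.exp_le_exp.mpr
      push_cast
      linarith only []
    calc C3 * z * (Real.log z) ^ 2 * (2 / 3 : ℝ) ^ (M ^ 25 + 1)
        ≤ Real.exp (M : ℝ) * z * Real.exp (2 * ll z) * Real.exp (-((M : ℝ) ^ 25) / 3) := by
          rw [h3]
          gcongr
      _ = z * Real.exp (-((M : ℝ) ^ 25 / 3 - M - 2 * ll z)) := by
          rw [show -((M : ℝ) ^ 25 / 3 - M - 2 * ll z) = M + 2 * ll z + -((M : ℝ) ^ 25) / 3 by ring,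
            Real.exp_add, Real.exp_add]
          ring
      _ ≤ W := by
          apply cmp_exp hz
          linarith only [p2, p17, p19, p25, p4, p14, p3, p18, p20, hzM', p15]
  have hExp : ll z + 2 * (M : ℝ) ^ 2 + 1 ≤ Real.exp ((M : ℝ) ^ 15) := by linarith only [p2, p17, p19, hexp15, hM, p25, p4, p14, p3, p28, p18, p20, hzM', p15]
  have b23 : 2 * z * Real.exp (-Real.exp ((M : ℝ) ^ 15)) ≤ W := by
    have h1 : (2 : ℝ) ≤ Real.exp 1 := by
      have := Real.add_one_le_exp (1 : ℝ)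
      linarith only [this]
    calc 2 * z * Real.exp (-Real.exp ((M : ℝ) ^ 15))
        ≤ Real.exp 1 * z * Real.exp (-Real.exp ((M : ℝ) ^ 15)) := by gcongr
      _ = z * Real.exp (-(Real.exp ((M : ℝ) ^ 15) - 1)) := by
          rw [show -(Real.exp ((M : ℝ) ^ 15) - 1) = 1 + -Real.exp ((M : ℝ) ^ 15) by ring,
            Real.exp_add]
          ring
      _ ≤ W := by
          apply cmp_exp hz
          linarith only [p2, p17, p19, hexp15, hM, p25, p4, p14, p3, p28, p18, p20, hzM', p15]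
  have b2 : (s2.card : ℝ) ≤ W := by
    refine le_trans ?_ b23
    refine le_trans ?_ (nosq_count M hM1 z (by linarith only [hz]))
    norm_cast
    apply Finset.card_le_card
    intro v hv
    rw [Finset.mem_filter] at hv
    rw [Finset.mem_filter, Finset.mem_Icc]
    exact ⟨⟨(hs v hv.1).1.pos, Nat.le_floor (hs v hv.1).2.1⟩, hv.2⟩
  have b3 : (s3.card : ℝ) ≤ W := by
    have h1 := count_pp z (Real.exp (Real.exp ((M : ℝ) ^ 15))) s3 (by
      have h2 := Real.add_one_le_exp (Real.exp ((M : ℝ) ^ 15))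
      have h3 := Real.add_one_le_exp ((M : ℝ) ^ 15)
      linarith only [p15, p20, p18, p28, p3, p14, p4, p25, hM, hexp15, h2, p19, p17, p2]) hz0.le (by
      intro v hv
      rw [Finset.mem_filter] at hv
      exact ⟨(hs v hv.1).1.pos, (hs v hv.1).2.1, hv.2⟩)
    refine h1.trans ?_
    rw [div_eq_mul_inv, ← Real.exp_neg]
    exact b23
  have b4a : (s4a.card : ℝ) ≤ 2 * W := by
    have h1 := count_nn_small M z hz hzM' hnpc hcm s4a (by
      intro v hv
      rw [Finset.mem_filter] at hv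
      exact ⟨(hs v hv.1).2.1, hv.2⟩)
    have h2 : z / Real.log z * (2 * Real.exp (-(M : ℝ) ^ 4) * Real.exp (M : ℝ)) ≤ W := by
      apply mul_le_mul_of_nonneg_left _ hzl
      have h3 : (2 : ℝ) ≤ Real.exp 1 := by
        have := Real.add_one_le_exp (1 : ℝ)
        linarith only [this]
      calc 2 * Real.exp (-(M : ℝ) ^ 4) * Real.exp (M : ℝ)
          ≤ Real.exp 1 * Real.exp (-(M : ℝ) ^ 4) * Real.exp (M : ℝ) := by gcongr
        _ = Real.exp (1 + -(M : ℝ) ^ 4 + M) := by rw [Real.exp_add, Real.exp_add]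
        _ ≤ Real.exp (-2 * (M : ℝ) ^ 2) := by
            apply Real.exp_le_exp.mpr
            linarith only [p2, hM, p4, p3]
    linarith only [h1, h2, hN.sqrt_le hz hzM]
  have b4b : (s4b.card : ℝ) ≤ W := by
    have h1 := count_nn_large M z hz hzM' (by linarith only [p2, p17, hM, hzM, p4, p14, p3, p15]) hnpm hcmc s4b (by
      intro v hv
      rw [Finset.mem_filter] at hv
      exact ⟨(hs v hv.1).2.1, hv.2⟩)
    refine h1.trans ?_
    apply mul_le_mul_of_nonneg_left _ hzl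
    have h3 : (2 : ℝ) ≤ Real.exp 1 := by
      have := Real.add_one_le_exp (1 : ℝ)
      linarith only [this]
    calc 2 * Real.exp (2 * (M : ℝ)) * Real.exp (-(M : ℝ) ^ 3)
        ≤ Real.exp 1 * Real.exp (2 * (M : ℝ)) * Real.exp (-(M : ℝ) ^ 3) := by gcongr
      _ = Real.exp (1 + 2 * (M : ℝ) + -(M : ℝ) ^ 3) := by rw [Real.exp_add, Real.exp_add]
      _ ≤ Real.exp (-2 * (M : ℝ) ^ 2) := by
          apply Real.exp_le_exp.mpr
          linarith only [p2, hM, p3]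
  have b5 : (s5.card : ℝ) ≤ W := by
    have h1 := hubc ((M : ℝ) ^ 18) z s5 hz3 hzM hzM' (by linarith only [p2, p17, p19, p4, p14, p3, p18, p20, p15]) (by
      intro v hv
      rw [Finset.mem_filter] at hv
      obtain ⟨hv1, hv2, hv3, hv4⟩ := hv
      have h2 : M ^ 25 ≤ M ^ 26 := Nat.pow_le_pow_right hM1 (by norm_num)
      exact ⟨(hs v hv1).1.pos, (hs v hv1).2.1, hv3.trans h2, hv4⟩)
    refine h1.trans ?_
    apply mul_le_mul_of_nonneg_left _ hzl
    apply Real.exp_le_exp.mpr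
    linarith only [p2, p17, p19, p4, p14, p3, p18, p15]
  have b6 : (s6.card : ℝ) ≤ W := by
    apply hcmany z s6 hz hzM
    intro v hv
    rw [Finset.mem_filter] at hv
    obtain ⟨hv1, hv2, hv3, hv4⟩ := hv
    exact ⟨hv2, (hs v hv1).2.1, hv3, hv4⟩
  have b7 : (s7.card : ℝ) ≤ W := by
    apply count_class7 (C1 + C3) C1 M hN (by linarith only [hC3]) hsum hubm hmm z hz hzM' s7
    intro v hv
    rw [Finset.mem_filter] at hv
    exact ⟨(hs v hv.1).2.1, hv.2⟩
  -- total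
  have htot : (s.card : ℝ) ≤ 10 * W := by
    have h2 := card_nine s s0 s1 s2 s3 s4a s4b s5 s6 s7 hsub
    linarith only [b0, b6, b4a, b4b, b5, b1, b2, b7, h2, b3]
  refine htot.trans ?_
  have h3 : (10 : ℝ) ≤ Real.exp ((M : ℝ) ^ 2) := by
    have := Real.add_one_le_exp ((M : ℝ) ^ 2)
    linarith only [p2, hM, this]
  calc 10 * W ≤ Real.exp ((M : ℝ) ^ 2) * W := by gcongr
    _ = z / Real.log z * (Real.exp ((M : ℝ) ^ 2) * Real.exp (-2 * (M : ℝ) ^ 2)) := by
        rw [hW]; ring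
    _ = z / Real.log z * Real.exp (-(M : ℝ) ^ 2) := by
        rw [← Real.exp_add]
        congr 2
        ring

/-- **Totients having at least one exceptional preimage are rare.** -/
theorem th_pre : ∀ᶠ M : ℕ in atTop, ∀ (z : ℝ) (s : Finset ℕ), 3 ≤ z → (M : ℝ) ^ 16 ≤ ll z →
    ll z ≤ 5 * (M : ℝ) ^ 20 → (∀ v ∈ s, IsTot v ∧ (v : ℝ) ≤ z ∧
      ∃ n : ℕ, 1 ≤ n ∧ Nat.totient n = v ∧ ¬ GoodPre M n) →
    (s.card : ℝ) ≤ z / Real.log z * Real.exp (-(M : ℝ) ^ 2) :=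
  th_of' sum_inv_le' sum_pow_Om om_large nosq_count ub_mass ub_count np_count np_mass cm cmc

end Vale.Agent.P031.H577
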