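import Vale.Agent.P031.H577.Core

set_option linter.all false

namespace Vale.Agent.P031.H577

open Finset Filter Topology Vale.Agent.P031.ThinM

/-- `cl_count` for one `M` -/
def ClAt (M : ℕ) : Prop := ∀ (x : ℝ) (Q : Finset (Finset ℕ × ℕ × Finset ℕ × ℕ)),
    3 ≤ x → ll x ≤ 5 * (M : ℝ) ^ 20 → (∀ q ∈ Q, ∃ u : ℕ, ColPair M x q u) →
    (Q.card : ℝ) ≤ x / Real.log x * Real.exp (-(M : ℝ) ^ 18 / 2)

/-- `th_pre` for one `M` -/
def ThAt (M : ℕ) : Prop := ∀ (z : ℝ) (s : Finset ℕ), 3 ≤ z → (M : ℝ) ^ 16 ≤ ll z →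
    ll z ≤ 5 * (M : ℝ) ^ 20 → (∀ v ∈ s, IsTot v ∧ (v : ℝ) ≤ z ∧
      ∃ n : ℕ, 1 ≤ n ∧ Nat.totient n = v ∧ ¬ GoodPre M n) →
    (s.card : ℝ) ≤ z / Real.log z * Real.exp (-(M : ℝ) ^ 2)

/-- two different tops give a collision -/
theorem exists_colPair {M : ℕ} {x : ℝ} (hM : 1 ≤ M)
    (hS : ∀ v : ℕ, Small M v → Om v ≤ M ^ 26 → (v : ℝ) + 1 ≤ √x)
    {a : ℕ × ℕ} (hPD : PD M 0 x a) (hsq : √x < (a.1 : ℝ)) (htot : IsTot ((a.1 - 1) * a.2))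
    (hT : ¬ Top ((a.1 - 1) * a.2) a.1)
    (hgood : ∀ n : ℕ, 1 ≤ n → Nat.totient n = (a.1 - 1) * a.2 → GoodPre M n) :
    ∃ q : Finset ℕ × ℕ × Finset ℕ × ℕ, ColPair M x q ((a.1 - 1) * a.2) := by
  have hpp : a.1.Prime := hPD.nrm.big.1
  have hT' : ∃ n : ℕ, 1 ≤ n ∧ Nat.totient n = (a.1 - 1) * a.2 ∧
      ¬ (a.1 ∣ n ∧ ¬ a.1 ^ 2 ∣ n ∧ ∀ r : ℕ, r.Prime → r ∣ n → r ≤ a.1) := by
    by_contra hc
    push Not at hc
    refine hT ⟨hpp, fun n hn hnv => ?_⟩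
    have := hc n hn hnv
    exact this
  obtain ⟨n, hn1, hnv, hnb⟩ := hT'
  obtain ⟨L, n', hn', hL, hLp, hnp, hnt, hlen⟩ := hgood n hn1 hnv
  rw [hnv] at hnt
  cases L with
  | nil =>
    exfalso
    rw [vl_nil] at hnt
    have h1 : Small M ((a.1 - 1) * a.2) := by
      rw [hnt]; exact Small_totient hn'
    have h2 := hS _ h1 hPD.om
    have h3 : 1 ≤ a.2 := by
      rcases Nat.eq_zero_or_pos a.2 with h | h
      · exfalso
        apply h1.1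
        rw [h]; simp
      · exact h
    have h4 : a.1 ≤ (a.1 - 1) * a.2 + 1 := by
      have := Nat.le_mul_of_pos_right (a.1 - 1) h3
      omega
    have h5 : (a.1 : ℝ) ≤ (((a.1 - 1) * a.2 : ℕ) : ℝ) + 1 := by exact_mod_cast h4
    linarith
  | cons p' L =>
    obtain ⟨q, hq1, hq2, hq3⟩ := PD_rep (by omega) hPD
    obtain ⟨q', hq1', hq2', hq3'⟩ := goodPre_rep (M := M) (n := n) hn' hL hLp hnt hlen
    refine ⟨(q.1, q.2, q'.1, q'.2), hq1, hq1', hPD.le, hPD.om, hPD.nosq, hPD.gg,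
      a.1, p', hq2, hq2', hq3, hq3', ?_, hPD.nrm, hL p' (by simp)⟩
    intro he
    apply hnb
    have := goodPre_top hn' hL hLp hnp
    rwa [← he] at this

theorem fail_at {M : ℕ} {x : ℝ} (hM : 1 ≤ M) (hx3 : 3 ≤ x) (hx1 : (M : ℝ) ^ 16 ≤ ll x)
    (hx2 : ll x ≤ 5 * (M : ℝ) ^ 20)
    (hS : ∀ v : ℕ, Small M v → Om v ≤ M ^ 26 → (v : ℝ) + 1 ≤ √x)
    (hcol : VLow.ColAt M) (hcl : ClAt M) (hth : ThAt M) (A : Finset (ℕ × ℕ))
    (hA : ∀ a ∈ A, PD M 0 x a ∧ IsTot ((a.1 - 1) * a.2) ∧ √x < (a.1 : ℝ) ∧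
      ¬ Top ((a.1 - 1) * a.2) a.1) :
    (A.card : ℝ) ≤ x / Real.log x * Real.exp (-(M : ℝ) ^ 2) +
      2 * (x / Real.log x * Real.exp (-(M : ℝ) ^ 18 / 2)) := by
  classical
  set f : ℕ × ℕ → ℕ := fun a => (a.1 - 1) * a.2 with hf
  set I : Finset ℕ := A.image f with hI
  set B1 : Finset ℕ := I.filter (fun v => ∃ n : ℕ, 1 ≤ n ∧ Nat.totient n = v ∧ ¬ GoodPre M n)
    with hB1
  set B2 : Finset ℕ := I.filter (fun v => ¬ ∃ n : ℕ, 1 ≤ n ∧ Nat.totient n = v ∧ ¬ GoodPre M n)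
    with hB2
  have hcomb : (A.card : ℝ) ≤ (I.card : ℝ) +
      (((A ×ˢ A).filter (fun c => c.1 ≠ c.2 ∧
      (c.1.1 - 1) * c.1.2 = (c.2.1 - 1) * c.2.2)).card : ℝ) := by
    exact_mod_cast VLow.card_le_image_add_coll A f
  have hcoll := hcol 0 x A (by omega) hx3 hx2 (fun a ha => (hA a ha).1)
  have hIc : (I.card : ℝ) ≤ B1.card + B2.card := by
    have h1 : I ⊆ B1 ∪ B2 := by
      intro v hv
      rw [mem_union, hB1, hB2, mem_filter, mem_filter]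
      by_cases h : ∃ n : ℕ, 1 ≤ n ∧ Nat.totient n = v ∧ ¬ GoodPre M n
      · exact Or.inl ⟨hv, h⟩
      · exact Or.inr ⟨hv, h⟩
    exact_mod_cast (card_le_card h1).trans (card_union_le _ _)
  have h1 : (B1.card : ℝ) ≤ x / Real.log x * Real.exp (-(M : ℝ) ^ 2) := by
    refine hth x B1 hx3 hx1 hx2 fun v hv => ?_
    rw [hB1, mem_filter] at hv
    obtain ⟨a, ha, rfl⟩ := mem_image.1 hv.1
    obtain ⟨g1, g2, g3, g4⟩ := hA a ha
    exact ⟨g2, g1.le, hv.2⟩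
  have h2 : (B2.card : ℝ) ≤ x / Real.log x * Real.exp (-(M : ℝ) ^ 18 / 2) := by
    have key : ∀ v ∈ B2, ∃ q : Finset ℕ × ℕ × Finset ℕ × ℕ, ColPair M x q v := by
      intro v hv
      rw [hB2, mem_filter] at hv
      obtain ⟨a, ha, rfl⟩ := mem_image.1 hv.1
      obtain ⟨g1, g2, g3, g4⟩ := hA a ha
      refine exists_colPair hM hS g1 g3 g2 g4 ?_
      intro n hn hnv
      by_contra hc
      exact hv.2 ⟨n, hn, hnv, hc⟩
    have hne : Nonempty (Finset ℕ × ℕ × Finset ℕ × ℕ) := ⟨(∅, 0, ∅, 0)⟩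
    choose! g hg using key
    have hinj : Set.InjOn g (B2 : Set ℕ) := by
      intro v hv w hw h
      have e1 := (hg v hv).rep.val
      have e2 := (hg w hw).rep.val
      rw [e1, e2, h]
    rw [← Finset.card_image_of_injOn hinj]
    refine hcl x _ hx3 hx2 fun q hq => ?_
    obtain ⟨v, hv, rfl⟩ := mem_image.1 hq
    exact ⟨v, hg v hv⟩
  linarith

end Vale.Agent.P031.H577
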