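import Vale.Agent.P031.H577.Trans

set_option linter.all false

namespace Vale.Agent.P031.H577

open Finset Filter Topology

/-! ### elementary facts on the preimages -/

theorem not_dvd_of {p D m : ℕ} (hp : p.Prime) (hlt : D + 1 < p) (hm : 1 ≤ m)
    (hmD : Nat.totient m = D) : ¬ p ∣ m := by
  intro h
  have h1 := Nat.totient_dvd_of_dvd h
  rw [Nat.totient_prime hp, hmD] at h1
  have h2 : 0 < D := by rw [← hmD]; exact Nat.totient_pos.2 hm
  have := Nat.le_of_dvd h2 h1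
  omega

/-- description of the preimages -/
theorem desc {p D : ℕ} (hlt : D + 1 < p) (htop : Top ((p - 1) * D) p) (n : ℕ) (hn : 1 ≤ n) :
    Nat.totient n = (p - 1) * D ↔ ∃ m : ℕ, 1 ≤ m ∧ Nat.totient m = D ∧ n = p * m := by
  have hp := htop.1
  have hp1 : 0 < p - 1 := by omega
  constructor
  · intro h
    obtain ⟨⟨m, hm⟩, h2, -⟩ := htop.2 n hn h
    have hm1 : 1 ≤ m := by
      rcases Nat.eq_zero_or_pos m with h3 | h3
      · rw [h3] at hm; omega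
      · exact h3
    have hpm : ¬ p ∣ m := by
      rintro ⟨c, hc⟩
      exact h2 ⟨c, by rw [hm, hc]; ring⟩
    have hcop : Nat.Coprime p m := (Nat.Prime.coprime_iff_not_dvd hp).2 hpm
    refine ⟨m, hm1, ?_, hm⟩
    rw [hm, Nat.totient_mul hcop, Nat.totient_prime hp] at h
    exact Nat.eq_of_mul_eq_mul_left hp1 h
  · rintro ⟨m, hm1, hmD, rfl⟩
    have hpm := not_dvd_of hp hlt hm1 hmD
    have hcop : Nat.Coprime p m := (Nat.Prime.coprime_iff_not_dvd hp).2 hpm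
    rw [Nat.totient_mul hcop, Nat.totient_prime hp, hmD]

theorem preim_eq {T : Set ℕ} {p D B : ℕ}
    (hT : ∀ p m : ℕ, p.Prime → B ≤ p → 1 ≤ m → ¬ p ∣ m → (p * m ∈ T ↔ m ∈ T))
    (hB : B ≤ p) (hlt : D + 1 < p) (htop : Top ((p - 1) * D) p) :
    preim T ((p - 1) * D) = preim T D := by
  have hp := htop.1
  unfold preim
  have h1 : {n : ℕ | 1 ≤ n ∧ Nat.totient n = (p - 1) * D ∧ n ∈ T} =
      (fun m => p * m) '' {m : ℕ | 1 ≤ m ∧ Nat.totient m = D ∧ m ∈ T} := by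
    ext n
    simp only [Set.mem_setOf_eq, Set.mem_image]
    constructor
    · rintro ⟨h1, h2, h3⟩
      obtain ⟨m, hm1, hmD, rfl⟩ := (desc hlt htop n h1).1 h2
      exact ⟨m, ⟨hm1, hmD, (hT p m hp hB hm1 (not_dvd_of hp hlt hm1 hmD)).1 h3⟩, rfl⟩
    · rintro ⟨m, ⟨hm1, hmD, hmT⟩, rfl⟩
      have h1 : 1 ≤ p * m := Nat.mul_pos hp.pos hm1
      exact ⟨h1, (desc hlt htop _ h1).2 ⟨m, hm1, hmD, rfl⟩,
        (hT p m hp hB hm1 (not_dvd_of hp hlt hm1 hmD)).2 hmT⟩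
  rw [h1]
  exact Set.ncard_image_of_injective _ (fun a b h => Nat.eq_of_mul_eq_mul_left hp.pos h)

/-! ### counting primes -/

theorem card_Prm_filter (S : Set ℕ) [DecidablePred (· ∈ S)] {x : ℝ} (hx : 0 ≤ x) (D : ℕ) :
    (((Prm x D).filter (fun p => p ∈ S)).card : ℝ) = pi S (x / (D : ℝ) + 1) := by
  unfold pi
  rw [← Set.ncard_coe_finset]
  congr 2
  ext p
  simp only [coe_filter, Set.mem_setOf_eq, mem_Prm]
  have hy : 0 ≤ x / (D : ℝ) := by positivity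
  have h1 : p < ⌊x / (D : ℝ)⌋₊ + 2 ↔ (p : ℝ) ≤ x / (D : ℝ) + 1 := by
    rw [← Nat.le_floor_iff (by positivity), Nat.floor_add_one hy]
    omega
  rw [h1]
  tauto

theorem pi_univ {y : ℝ} (hy : 0 ≤ y) : pi Set.univ y = (Nat.primeCounting ⌊y⌋₊ : ℝ) := by
  unfold pi
  have h1 : {p : ℕ | p.Prime ∧ (p : ℝ) ≤ y ∧ p ∈ Set.univ} =
      (((Finset.range (⌊y⌋₊ + 1)).filter Nat.Prime : Finset ℕ) : Set ℕ) := by
    ext p
    simp only [coe_filter, Set.mem_setOf_eq, Finset.mem_range, Set.mem_univ, and_true]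
    rw [← Nat.le_floor_iff hy]
    constructor
    · rintro ⟨h1, h2⟩; exact ⟨by omega, h1⟩
    · rintro ⟨h1, h2⟩; exact ⟨h2, by omega⟩
  rw [h1, Set.ncard_coe_finset, Nat.primeCounting, Nat.primeCounting',
    Nat.count_eq_card_filter_range]

theorem pi_univ_pc1 {y : ℝ} (hy : 0 ≤ y) : pi Set.univ (y + 1) = pc1 y := by
  rw [pi_univ (by linarith)]
  rfl

theorem pi_nonneg (S : Set ℕ) (y : ℝ) : 0 ≤ pi S y := Nat.cast_nonneg _

theorem pc1_pos {y : ℝ} (hy : 1 ≤ y) : 0 < pc1 y := by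
  unfold pc1
  have h3 : 2 ≤ ⌊y + 1⌋₊ := Nat.le_floor (by push_cast; linarith)
  have h4 : Nat.primeCounting 2 ≤ Nat.primeCounting ⌊y + 1⌋₊ := Nat.monotone_primeCounting h3
  have h5 : 0 < Nat.primeCounting 2 := by decide
  exact_mod_cast lt_of_lt_of_le h5 h4

theorem pi_near {S : Set ℕ} {δ : ℝ}
    (hS : Tendsto (fun y : ℝ => pi S y / pi Set.univ y) atTop (𝓝 δ)) {c : ℝ} (hc : 0 < c)
    {ε : ℝ} (hε : 0 < ε) : ∃ K : ℝ, 1 ≤ K ∧ ∀ y : ℝ, K ≤ y →
      |pi S (c * y + 1) - c * δ * pi Set.univ (y + 1)| ≤ ε * pi Set.univ (y + 1) := by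
  obtain ⟨η, hη0, hη1, hη2⟩ : ∃ η : ℝ, 0 < η ∧ η ≤ 1 ∧ η * (c + 1 + |δ|) ≤ ε := by
    refine ⟨min 1 (ε / (c + 1 + |δ|)), by positivity, min_le_left _ _, ?_⟩
    have h0 : 0 < c + 1 + |δ| := by positivity
    calc min 1 (ε / (c + 1 + |δ|)) * (c + 1 + |δ|) ≤ ε / (c + 1 + |δ|) * (c + 1 + |δ|) := by
          gcongr
          exact min_le_right _ _
      _ = ε := by field_simp
  obtain ⟨K₁, hK₁, h1⟩ := pc1_near hc hη0
  have h2 := (Metric.tendsto_atTop.1 hS) η hη0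
  obtain ⟨K₂, h2⟩ := h2
  refine ⟨max K₁ (max (K₂ / c) (1 / c)), le_max_of_le_left hK₁, fun y hy => ?_⟩
  have hy1 : K₁ ≤ y := (le_max_left _ _).trans hy
  have hy2 : K₂ / c ≤ y := (le_max_left _ _).trans ((le_max_right _ _).trans hy)
  have hy3 : 1 / c ≤ y := (le_max_right _ _).trans ((le_max_right _ _).trans hy)
  have hy0 : 0 ≤ y := by linarith
  rw [div_le_iff₀ hc] at hy2 hy3
  have hcy : 0 ≤ c * y := by positivity
  have h3 := h2 (c * y + 1) (by nlinarith)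
  have h4 := h1 y hy1
  rw [Real.dist_eq] at h3
  rw [pi_univ_pc1 hcy] at h3
  rw [pi_univ_pc1 hy0]
  have hpos : 0 < pc1 (c * y) := pc1_pos (by linarith)
  have h5 : |pi S (c * y + 1) - δ * pc1 (c * y)| ≤ η * pc1 (c * y) := by
    have e : pi S (c * y + 1) / pc1 (c * y) - δ =
        (pi S (c * y + 1) - δ * pc1 (c * y)) / pc1 (c * y) := by
      field_simp
    rw [e, abs_div, abs_of_pos hpos, div_lt_iff₀ hpos] at h3
    exact h3.le
  have hpy : 0 ≤ pc1 y := pc1_nonneg y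
  have h6 : pc1 (c * y) ≤ (c + 1) * pc1 y := by
    have := (abs_le.1 h4).2
    nlinarith
  have h7 : |δ * pc1 (c * y) - c * δ * pc1 y| ≤ |δ| * (η * pc1 y) := by
    rw [show δ * pc1 (c * y) - c * δ * pc1 y = δ * (pc1 (c * y) - c * pc1 y) by ring, abs_mul]
    gcongr
  calc |pi S (c * y + 1) - c * δ * pc1 y|
      = |(pi S (c * y + 1) - δ * pc1 (c * y)) + (δ * pc1 (c * y) - c * δ * pc1 y)| := by
        congr 1; ring
    _ ≤ η * pc1 (c * y) + |δ| * (η * pc1 y) := (abs_add_le _ _).trans (add_le_add h5 h7)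
    _ ≤ η * ((c + 1) * pc1 y) + |δ| * (η * pc1 y) := by gcongr
    _ = η * (c + 1 + |δ|) * pc1 y := by ring
    _ ≤ ε * pc1 y := by gcongr

/-! ### counting pairs -/

open Classical in
theorem card_pairs (S 𝒟 : Set ℕ) {x : ℝ} (hx : 0 ≤ x) (F : Finset ℕ) :
    cntP F x (fun a => a.1 ∈ S ∧ a.2 ∈ 𝒟) =
      ∑ D ∈ F, if D ∈ 𝒟 then pi S (x / (D : ℝ) + 1) else 0 := by
  rw [cntP_eq, card_Prs_filter]
  push_cast
  refine sum_congr rfl fun D _ => ?_
  by_cases h : D ∈ 𝒟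
  · rw [if_pos h, ← card_Prm_filter S hx D]
    simp only [h, and_true]
  · rw [if_neg h]
    simp [h]

theorem V_nonneg (x : ℝ) : 0 ≤ V x := by unfold V; positivity

theorem V_pos {x : ℝ} (hx : 1 ≤ x) : 0 < V x := by
  unfold V
  have : 0 < Set.ncard {v : ℕ | Tot v ∧ (v : ℝ) ≤ x} := by
    rw [Set.ncard_pos (fin_tot' x)]
    exact ⟨1, ⟨1, le_rfl, by simp⟩, by simpa using hx⟩
  exact_mod_cast this

theorem V_ratio (c : ℝ) (hc : 0 < c) : Tendsto (fun x : ℝ => V (c * x) / V x) atTop (𝓝 c) :=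
  Vale.Agent.P031.main c hc

theorem V_le (c : ℝ) (hc : 0 < c) : ∀ᶠ x : ℝ in atTop, V (c * x) ≤ (c + 1) * V x := by
  filter_upwards [(V_ratio c hc).eventually (gt_mem_nhds (show c < c + 1 by linarith)),
    eventually_ge_atTop 1] with x hx hx1
  rw [div_lt_iff₀ (V_pos hx1)] at hx
  exact hx.le

end Vale.Agent.P031.H577
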