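import Vale.Agent.P031.H577.Fin

set_option linter.all false

namespace Vale.Agent.P031.H577

open Finset Filter Topology

theorem W_mono {Q Q' : ℕ → Prop} (h : ∀ v, Q v → Q' v) (x : ℝ) : W Q x ≤ W Q' x := by
  have h1 : {v : ℕ | Tot v ∧ (v : ℝ) ≤ x ∧ Q v} ⊆ {v : ℕ | Tot v ∧ (v : ℝ) ≤ x ∧ Q' v} :=
    fun v hv => ⟨hv.1, hv.2.1, h v hv.2.2⟩
  unfold W
  exact_mod_cast Set.ncard_le_ncard h1 (fin_tot x Q')

theorem W_le_V (Q : ℕ → Prop) (x : ℝ) : W Q x ≤ V x := by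
  have h1 : {v : ℕ | Tot v ∧ (v : ℝ) ≤ x ∧ Q v} ⊆ {v : ℕ | Tot v ∧ (v : ℝ) ≤ x} :=
    fun v hv => ⟨hv.1, hv.2.1⟩
  unfold W V
  exact_mod_cast Set.ncard_le_ncard h1 (fin_tot' x)

/-- **Structure.** -/
theorem structure_thm (ε : ℝ) (hε : 0 < ε) :
    Tendsto (fun x : ℝ => W (fun v : ℕ => ∃ P : ℕ, Top v P ∧ (v : ℝ) ^ (1 - ε) ≤ (P : ℝ) ∧
      Tot (v / (P - 1)) ∧ ∀ n : ℕ, 1 ≤ n → (Nat.totient n = v ↔
        ∃ m : ℕ, 1 ≤ m ∧ Nat.totient m = v / (P - 1) ∧ n = P * m)) x / V x) atTop (𝓝 1) := by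
  classical
  rw [Metric.tendsto_atTop]
  intro η hη
  obtain ⟨ε₁, hε₁, h1, h2⟩ : ∃ ε₁ : ℝ, 0 < ε₁ ∧ ε₁ ≤ ε ∧ ε₁ ≤ η / 4 :=
    ⟨min ε (η / 4), by positivity, min_le_left _ _, min_le_right _ _⟩
  obtain ⟨x₀, hx₀⟩ := exists_F 1 one_pos ε₁ hε₁ 0
  refine ⟨max x₀ 1, fun x hx => ?_⟩
  obtain ⟨F, hF, hD, -⟩ := hx₀ x ((le_max_left _ _).trans hx)
  have hx1 : 1 ≤ x := (le_max_right _ _).trans hx
  have hV := V_pos hx1
  have key := transfer (by linarith) hD (fun v : ℕ => ∃ P : ℕ, Top v P ∧ (v : ℝ) ^ (1 - ε) ≤ (P : ℝ) ∧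
      Tot (v / (P - 1)) ∧ ∀ n : ℕ, 1 ≤ n → (Nat.totient n = v ↔
        ∃ m : ℕ, 1 ≤ m ∧ Nat.totient m = v / (P - 1) ∧ n = P * m)) (fun _ => True) (by
    intro a ha hg
    refine iff_of_true ⟨a.1, hg.top, ?_, ?_, ?_⟩ trivial
    · refine le_trans ?_ hg.big
      apply Real.rpow_le_rpow_of_exponent_le
      · have h3 : 1 ≤ (a.1 - 1) * a.2 := by
          have := hg.top.1.two_le
          exact Nat.mul_pos (by omega) hg.one
        exact_mod_cast h3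
      · linarith
    · have h3 : 0 < a.1 - 1 := by have := hg.top.1.two_le; omega
      rw [Nat.mul_div_cancel_left _ h3]
      obtain ⟨n, hn, hnv⟩ := hg.tot
      obtain ⟨m, hm, hmD, -⟩ := (desc hg.lt hg.top n hn).1 hnv
      exact ⟨m, hm, hmD⟩
    · intro n hn
      have h3 : 0 < a.1 - 1 := by have := hg.top.1.two_le; omega
      rw [Nat.mul_div_cancel_left _ h3]
      exact desc hg.lt hg.top n hn)
  rw [cntP_true] at key
  set w := W (fun v => ∃ P : ℕ, Top v P ∧ (v : ℝ) ^ (1 - ε) ≤ (P : ℝ) ∧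
      Tot (v / (P - 1)) ∧ ∀ n : ℕ, 1 ≤ n → (Nat.totient n = v ↔
        ∃ m : ℕ, 1 ≤ m ∧ Nat.totient m = v / (P - 1) ∧ n = P * m)) x with hw
  have h3 := hD.1
  rw [Real.dist_eq]
  have h4 : w / V x - 1 = (w - V x) / V x := by field_simp
  rw [h4, abs_div, abs_of_pos hV, div_lt_iff₀ hV]
  have h5 : |w - V x| ≤ 3 * ε₁ * V x := by
    obtain ⟨a1, a2⟩ := abs_le.1 key
    obtain ⟨b1, b2⟩ := abs_le.1 h3
    rw [abs_le]
    constructor <;> linarith
  nlinarith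

/-- **Independence and equidistribution.** -/
theorem indep_thm (S : Set ℕ) (δ : ℝ)
    (hS : Tendsto (fun y : ℝ => pi S y / pi Set.univ y) atTop (𝓝 δ)) (c : ℝ) (hc : 0 < c)
    (ε : ℝ) (hε : 0 < ε) : ∀ᶠ x : ℝ in atTop, ∀ 𝒟 : Set ℕ,
      |W (fun v => ∃ P : ℕ, Top v P ∧ P ∈ S ∧ v / (P - 1) ∈ 𝒟) (c * x) -
        c * δ * W (fun v => ∃ P : ℕ, Top v P ∧ v / (P - 1) ∈ 𝒟) x| ≤ ε * V x := by
  classical
  obtain ⟨η, hη0, hη1, hη2⟩ : ∃ η : ℝ, 0 < η ∧ η ≤ 1 ∧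
      η * (2 * (c + 1) + 2 + 2 * |c * δ|) ≤ ε := by
    refine ⟨min 1 (ε / (2 * (c + 1) + 2 + 2 * |c * δ|)), by positivity, min_le_left _ _, ?_⟩
    have h0 : 0 < 2 * (c + 1) + 2 + 2 * |c * δ| := by positivity
    calc min 1 (ε / (2 * (c + 1) + 2 + 2 * |c * δ|)) * (2 * (c + 1) + 2 + 2 * |c * δ|) ≤
          ε / (2 * (c + 1) + 2 + 2 * |c * δ|) * (2 * (c + 1) + 2 + 2 * |c * δ|) := by
          gcongr
          exact min_le_right _ _
      _ = ε := by field_simp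
  obtain ⟨K, hK1, hK⟩ := pi_near hS hc hη0
  obtain ⟨x₀, hx₀⟩ := exists_F c hc η hη0 K
  filter_upwards [eventually_ge_atTop x₀, eventually_ge_atTop 1, V_le c hc] with x h1 hx1 hVc 𝒟
  obtain ⟨F, hF, hD1, hD2⟩ := hx₀ x h1
  have hx0 : 0 ≤ x := by linarith
  have hcx0 : 0 ≤ c * x := by positivity
  have hV := V_pos hx1
  -- the two transfers
  have t1 := transfer hcx0 hD2 (fun v => ∃ P : ℕ, Top v P ∧ P ∈ S ∧ v / (P - 1) ∈ 𝒟)
    (fun a => a.1 ∈ S ∧ a.2 ∈ 𝒟) (by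
      intro a ha hg
      have h3 : 0 < a.1 - 1 := by have := hg.top.1.two_le; omega
      constructor
      · rintro ⟨P, hP1, hP2, hP3⟩
        have := Top_unique hg.tot hg.top hP1
        rw [← this] at hP2 hP3
        rw [Nat.mul_div_cancel_left _ h3] at hP3
        exact ⟨hP2, hP3⟩
      · rintro ⟨g1, g2⟩
        refine ⟨a.1, hg.top, g1, ?_⟩
        rw [Nat.mul_div_cancel_left _ h3]
        exact g2)
  have t2 := transfer hx0 hD1 (fun v => ∃ P : ℕ, Top v P ∧ v / (P - 1) ∈ 𝒟)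
    (fun a => a.1 ∈ (Set.univ : Set ℕ) ∧ a.2 ∈ 𝒟) (by
      intro a ha hg
      have h3 : 0 < a.1 - 1 := by have := hg.top.1.two_le; omega
      constructor
      · rintro ⟨P, hP1, hP3⟩
        have := Top_unique hg.tot hg.top hP1
        rw [← this] at hP3
        rw [Nat.mul_div_cancel_left _ h3] at hP3
        exact ⟨Set.mem_univ _, hP3⟩
      · rintro ⟨-, g2⟩
        refine ⟨a.1, hg.top, ?_⟩
        rw [Nat.mul_div_cancel_left _ h3]
        exact g2)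
  rw [card_pairs S 𝒟 hcx0 F] at t1
  rw [card_pairs Set.univ 𝒟 hx0 F] at t2
  set A := ∑ D ∈ F, if D ∈ 𝒟 then pi S (c * x / (D : ℝ) + 1) else 0 with hA
  set A' := ∑ D ∈ F, if D ∈ 𝒟 then pi Set.univ (x / (D : ℝ) + 1) else 0 with hA'
  have hAA : |A - c * δ * A'| ≤ η * (2 * V x) := by
    have h2 : ((Prs F x).card : ℝ) ≤ 2 * V x := by
      have := (abs_le.1 hD1.1).1
      nlinarith
    have h3 : ((Prs F x).card : ℝ) = ∑ D ∈ F, pi Set.univ (x / (D : ℝ) + 1) := by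
      have h4 := card_pairs Set.univ Set.univ hx0 F
      simp only [Set.mem_univ, true_and, if_true] at h4
      rw [← h4, cntP_true]
    have h5 : |A - c * δ * A'| ≤ η * (Prs F x).card := by
      rw [h3, hA, hA', mul_sum, mul_sum, ← sum_sub_distrib]
      refine (abs_sum_le_sum_abs _ _).trans (sum_le_sum fun D hD => ?_)
      have h6 := hK (x / D) (hF D hD).2
      rw [← mul_div_assoc] at h6
      by_cases h7 : D ∈ 𝒟
      · rw [if_pos h7, if_pos h7]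
        exact h6
      · rw [if_neg h7, if_neg h7, mul_zero, sub_zero, abs_zero]
        exact mul_nonneg hη0.le (pi_nonneg _ _)
    exact h5.trans (mul_le_mul_of_nonneg_left h2 hη0.le)
  set w1 := W (fun v => ∃ P : ℕ, Top v P ∧ P ∈ S ∧ v / (P - 1) ∈ 𝒟) (c * x) with hw1
  set w2 := W (fun v => ∃ P : ℕ, Top v P ∧ v / (P - 1) ∈ 𝒟) x with hw2
  have e1 : |c * δ * A' - c * δ * w2| ≤ |c * δ| * (2 * η * V x) := by
    rw [show c * δ * A' - c * δ * w2 = -(c * δ * (w2 - A')) by ring, abs_neg, abs_mul]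
    gcongr
  have e2 : 2 * η * V (c * x) ≤ 2 * η * ((c + 1) * V x) := by gcongr
  calc |w1 - c * δ * w2| = |(w1 - A) + (A - c * δ * A') + (c * δ * A' - c * δ * w2)| := by
        congr 1; ring
    _ ≤ |w1 - A| + |A - c * δ * A'| + |c * δ * A' - c * δ * w2| := by
        refine (abs_add_le _ _).trans ?_
        gcongr
        exact abs_add_le _ _
    _ ≤ 2 * η * ((c + 1) * V x) + η * (2 * V x) + |c * δ| * (2 * η * V x) := by
        linarith
    _ = η * (2 * (c + 1) + 2 + 2 * |c * δ|) * V x := by ring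
    _ ≤ ε * V x := by gcongr

/-- **Multiplicities.** -/
theorem mult_thm (T : Set ℕ) (hT : Stable T) (c : ℝ) (hc : 0 < c) (ε : ℝ) (hε : 0 < ε) :
    ∀ᶠ x : ℝ in atTop, ∀ 𝒦 : Set ℕ,
      |W (fun v => preim T v ∈ 𝒦) (c * x) - c * W (fun v => preim T v ∈ 𝒦) x| ≤ ε * V x := by
  classical
  obtain ⟨η, hη0, hη1, hη2⟩ : ∃ η : ℝ, 0 < η ∧ η ≤ 1 ∧
      η * (2 * (c + 1) + 2 + 2 * c) ≤ ε := by
    refine ⟨min 1 (ε / (2 * (c + 1) + 2 + 2 * c)), by positivity, min_le_left _ _, ?_⟩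
    have h0 : 0 < 2 * (c + 1) + 2 + 2 * c := by positivity
    calc min 1 (ε / (2 * (c + 1) + 2 + 2 * c)) * (2 * (c + 1) + 2 + 2 * c) ≤
          ε / (2 * (c + 1) + 2 + 2 * c) * (2 * (c + 1) + 2 + 2 * c) := by
          gcongr
          exact min_le_right _ _
      _ = ε := by field_simp
  obtain ⟨B, hB⟩ := hT
  have hS : Tendsto (fun y : ℝ => pi Set.univ y / pi Set.univ y) atTop (𝓝 1) := by
    refine tendsto_const_nhds.congr' ?_
    filter_upwards [eventually_ge_atTop 2] with y hy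
    have h1 : pi Set.univ y = pc1 (y - 1) := by
      have := pi_univ_pc1 (y := y - 1) (by linarith)
      rwa [sub_add_cancel] at this
    have h2 := pc1_pos (y := y - 1) (by linarith)
    rw [h1, div_self h2.ne']
  obtain ⟨K, hK1, hK⟩ := pi_near hS hc hη0
  obtain ⟨x₀, hx₀⟩ := exists_F c hc η hη0 K
  have hcx : ∀ᶠ x : ℝ in atTop, (B : ℝ) ^ 2 ≤ c * x :=
    (tendsto_id.const_mul_atTop hc).eventually_ge_atTop _
  filter_upwards [eventually_ge_atTop x₀, eventually_ge_atTop 1, V_le c hc, hcx,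
    eventually_ge_atTop ((B : ℝ) ^ 2)] with x h1 hx1 hVc hb1 hb2 𝒦
  obtain ⟨F, hF, hD1, hD2⟩ := hx₀ x h1
  have hx0 : 0 ≤ x := by linarith
  have hcx0 : 0 ≤ c * x := by positivity
  have hV := V_pos hx1
  have tr : ∀ y : ℝ, (B : ℝ) ^ 2 ≤ y → ∀ a : ℕ × ℕ, GPr η y a →
      (preim T ((a.1 - 1) * a.2) ∈ 𝒦 ↔
        (a.1 ∈ (Set.univ : Set ℕ) ∧ a.2 ∈ {D : ℕ | preim T D ∈ 𝒦})) := by
    intro y hy a hg
    have h2 : (B : ℝ) ≤ a.1 := by
      have h3 : (B : ℝ) ≤ √y := Real.le_sqrt_of_sq_le hy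
      exact h3.trans hg.sq.le
    have h3 : B ≤ a.1 := by exact_mod_cast h2
    rw [preim_eq hB h3 hg.lt hg.top]
    simp
  have t1 := transfer hcx0 hD2 (fun v => preim T v ∈ 𝒦)
    (fun a => a.1 ∈ (Set.univ : Set ℕ) ∧ a.2 ∈ {D : ℕ | preim T D ∈ 𝒦})
    (fun a _ hg => tr (c * x) hb1 a hg)
  have t2 := transfer hx0 hD1 (fun v => preim T v ∈ 𝒦)
    (fun a => a.1 ∈ (Set.univ : Set ℕ) ∧ a.2 ∈ {D : ℕ | preim T D ∈ 𝒦})
    (fun a _ hg => tr x hb2 a hg)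
  rw [card_pairs Set.univ _ hcx0 F] at t1
  rw [card_pairs Set.univ _ hx0 F] at t2
  set 𝒟 : Set ℕ := {D : ℕ | preim T D ∈ 𝒦} with h𝒟
  set A := ∑ D ∈ F, if D ∈ 𝒟 then pi Set.univ (c * x / (D : ℝ) + 1) else 0 with hA
  set A' := ∑ D ∈ F, if D ∈ 𝒟 then pi Set.univ (x / (D : ℝ) + 1) else 0 with hA'
  have hAA : |A - c * A'| ≤ η * (2 * V x) := by
    have h2 : ((Prs F x).card : ℝ) ≤ 2 * V x := by
      have := (abs_le.1 hD1.1).1
      nlinarith
    have h3 : ((Prs F x).card : ℝ) = ∑ D ∈ F, pi Set.univ (x / (D : ℝ) + 1) := by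
      have h4 := card_pairs Set.univ Set.univ hx0 F
      simp only [Set.mem_univ, true_and, if_true] at h4
      rw [← h4, cntP_true]
    have h5 : |A - c * A'| ≤ η * (Prs F x).card := by
      rw [h3, hA, hA', mul_sum, mul_sum, ← sum_sub_distrib]
      refine (abs_sum_le_sum_abs _ _).trans (sum_le_sum fun D hD => ?_)
      have h6 := hK (x / D) (hF D hD).2
      rw [← mul_div_assoc, mul_one] at h6
      by_cases h7 : D ∈ 𝒟
      · rw [if_pos h7, if_pos h7]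
        exact h6
      · rw [if_neg h7, if_neg h7, mul_zero, sub_zero, abs_zero]
        exact mul_nonneg hη0.le (pi_nonneg _ _)
    exact h5.trans (mul_le_mul_of_nonneg_left h2 hη0.le)
  set w1 := W (fun v => preim T v ∈ 𝒦) (c * x) with hw1
  set w2 := W (fun v => preim T v ∈ 𝒦) x with hw2
  have e1 : |c * A' - c * w2| ≤ c * (2 * η * V x) := by
    rw [show c * A' - c * w2 = -(c * (w2 - A')) by ring, abs_neg, abs_mul, abs_of_pos hc]
    gcongr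
  have e2 : 2 * η * V (c * x) ≤ 2 * η * ((c + 1) * V x) := by gcongr
  calc |w1 - c * w2| = |(w1 - A) + (A - c * A') + (c * A' - c * w2)| := by
        congr 1; ring
    _ ≤ |w1 - A| + |A - c * A'| + |c * A' - c * w2| := by
        refine (abs_add_le _ _).trans ?_
        gcongr
        exact abs_add_le _ _
    _ ≤ 2 * η * ((c + 1) * V x) + η * (2 * V x) + c * (2 * η * V x) := by
        linarith
    _ = η * (2 * (c + 1) + 2 + 2 * c) * V x := by ring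
    _ ≤ ε * V x := by gcongr

end Vale.Agent.P031.H577
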