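import Vale.Agent.P031.H577.Approx

set_option linter.all false

namespace Vale.Agent.P031.H577

open Finset Filter Topology Vale.Agent.P031.ThinM

/-- members of `DF` are `x^(o(1))` -/
theorem DF_small (η : ℝ) (hη : 0 < η) : ∀ᶠ M : ℕ in atTop, ∀ (x T C₀ : ℝ) (D : ℕ), 3 ≤ x →
    1 ≤ C₀ → |ll x - (M : ℝ) ^ 15 - T| ≤ 1 → D ∈ DF M 0 1 (T - C₀ * (M : ℝ) ^ 18) →
    Real.log D ≤ η * Real.log x := by
  filter_upwards [VLow.ev_pow_exp 25 (η / Real.exp 1) (by positivity), eventually_ge_atTop 1]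
    with M h1 hM x T C₀ D hx hC hT hD
  rw [mem_DF] at hD
  obtain ⟨⟨hD1, -⟩, ⟨-, hOm⟩, hc⟩ := hD
  rw [VLow.Cost_one] at hc
  have hM1 : (1 : ℝ) ≤ M := by exact_mod_cast hM
  have hlogx : 0 < Real.log x := Real.log_pos (by linarith)
  have hM18 : (M : ℝ) ≤ (M : ℝ) ^ 18 := le_self_pow₀ hM1 (by norm_num)
  have hC18 : (M : ℝ) ^ 18 ≤ C₀ * (M : ℝ) ^ 18 := by
    have : (0 : ℝ) ≤ (M : ℝ) ^ 18 := by positivity
    nlinarith
  refine VLow.log_D_le (K := (0 + 1) * M ^ 25) (by omega) hOm ((le_max_left _ _).trans hc) ?_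
  obtain ⟨ha, hb⟩ := abs_le.1 hT
  have h2 : Real.exp (T - C₀ * (M : ℝ) ^ 18 + (M : ℝ) ^ 15) ≤
      Real.exp 1 * Real.exp (-(M : ℝ)) * Real.log x := by
    rw [← VLow.exp_ll hlogx, ← Real.exp_add, ← Real.exp_add]
    apply Real.exp_le_exp.2
    linarith
  push_cast
  calc (1 : ℝ) * (M : ℝ) ^ 25 * Real.exp (T - C₀ * (M : ℝ) ^ 18 + (M : ℝ) ^ 15)
      ≤ 1 * (M : ℝ) ^ 25 * (Real.exp 1 * Real.exp (-(M : ℝ)) * Real.log x) := by gcongr
    _ = ((M : ℝ) ^ 25 * Real.exp (-(M : ℝ))) * Real.exp 1 * Real.log x := by ring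
    _ ≤ (η / Real.exp 1) * Real.exp 1 * Real.log x := by gcongr
    _ = η * Real.log x := by field_simp

/-- good pairs at the scale `x` -/
structure GPr (ε x : ℝ) (a : ℕ × ℕ) : Prop where
  tot : IsTot ((a.1 - 1) * a.2)
  top : Top ((a.1 - 1) * a.2) a.1
  one : 1 ≤ a.2
  lt : a.2 + 1 < a.1
  sq : √x < (a.1 : ℝ)
  big : ((((a.1 - 1) * a.2 : ℕ) : ℝ)) ^ (1 - ε) ≤ (a.1 : ℝ)

theorem num_small : ∀ᶠ M : ℕ in atTop,
    Real.log 2 + (M : ℝ) ^ 26 * Real.exp ((M : ℝ) ^ 15) ≤ Real.exp ((M : ℝ) ^ 19) / 2 := by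
  filter_upwards [VLow.ev_pow_exp 26 1 one_pos, eventually_ge_atTop 3] with M h1 hM
  have hM3 : (3 : ℝ) ≤ M := by exact_mod_cast hM
  have hM1 : (1 : ℝ) ≤ M := by linarith
  have h2 : (M : ℝ) ^ 26 ≤ Real.exp (M : ℝ) := by
    rw [Real.exp_neg, ← div_eq_mul_inv, div_le_iff₀ (Real.exp_pos _)] at h1
    linarith
  have h3 : (M : ℝ) ^ 26 * Real.exp ((M : ℝ) ^ 15) ≤ Real.exp (M + (M : ℝ) ^ 15) := by
    rw [Real.exp_add]
    gcongr
  have h4 : (M : ℝ) + (M : ℝ) ^ 15 + 2 ≤ (M : ℝ) ^ 19 := by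
    have a1 : (M : ℝ) ^ 16 ≤ (M : ℝ) ^ 19 := pow_le_pow_right₀ hM1 (by norm_num)
    have a2 : (M : ℝ) ^ 16 = M * (M : ℝ) ^ 15 := by ring
    have a3 : (M : ℝ) ≤ (M : ℝ) ^ 15 := le_self_pow₀ hM1 (by norm_num)
    nlinarith
  have h5 : Real.exp 2 * Real.exp (M + (M : ℝ) ^ 15) ≤ Real.exp ((M : ℝ) ^ 19) := by
    rw [← Real.exp_add]
    apply Real.exp_le_exp.2
    linarith
  have h6 : (4 : ℝ) ≤ Real.exp 2 := by
    have h7 := Real.add_one_le_exp (1 : ℝ)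
    have h8 : Real.exp 2 = Real.exp 1 * Real.exp 1 := by
      rw [← Real.exp_add]; norm_num
    rw [h8]
    nlinarith
  have h9 : 1 ≤ Real.exp (M + (M : ℝ) ^ 15) := Real.one_le_exp (by positivity)
  have h10 := Real.log_two_lt_d9
  nlinarith

theorem small_le {M : ℕ} {x : ℝ} (hs : VLow.Scale M x)
    (hn : Real.log 2 + (M : ℝ) ^ 26 * Real.exp ((M : ℝ) ^ 15) ≤ Real.exp ((M : ℝ) ^ 19) / 2)
    (v : ℕ) (hv : Small M v) (hO : Om v ≤ M ^ 26) : (v : ℝ) + 1 ≤ √x := by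
  have h1 := hv.log_le
  have hv1 : (1 : ℝ) ≤ v := by exact_mod_cast Nat.one_le_iff_ne_zero.2 hv.1
  have h2 : (Om v : ℝ) ≤ (M : ℝ) ^ 26 := by exact_mod_cast hO
  have h3 : Real.log (2 * v) ≤ Real.log x / 2 := by
    rw [Real.log_mul (by norm_num) (by linarith)]
    have h4 := hs.exp_le
    have h5 : (Om v : ℝ) * Real.exp ((M : ℝ) ^ 15) ≤ (M : ℝ) ^ 26 * Real.exp ((M : ℝ) ^ 15) := by
      gcongr
    linarith
  rw [hs.sqrt_eq]
  calc (v : ℝ) + 1 ≤ 2 * v := by linarith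
    _ = Real.exp (Real.log (2 * v)) := (Real.exp_log (by linarith)).symm
    _ ≤ Real.exp (Real.log x / 2) := Real.exp_le_exp.2 h3

/-- sizes of the members of a pair -/
theorem pair_sizes {ε x : ℝ} {p D : ℕ} (hε : 0 < ε) (hx : 256 ≤ x) (hD1 : 1 ≤ D)
    (hD : Real.log D ≤ min (ε / 4) (1 / 4) * Real.log x) (hp : √x < (p : ℝ)) :
    D + 1 < p ∧ ((((p - 1) * D : ℕ) : ℝ)) ^ (1 - ε) ≤ (p : ℝ) := by
  have hx0 : 0 < x := by linarith
  have hL : 4 * Real.log 2 ≤ Real.log x := by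
    rw [show (4 : ℝ) * Real.log 2 = Real.log (2 ^ 4) by rw [Real.log_pow]; norm_num]
    exact Real.log_le_log (by norm_num) (by norm_num; linarith)
  have hl2 := Real.log_two_gt_d9
  have hL0 : 0 < Real.log x := by linarith
  have hsq : √x = Real.exp (Real.log x / 4) * Real.exp (Real.log x / 4) := by
    rw [← Real.exp_add, show Real.log x / 4 + Real.log x / 4 = Real.log x / 2 by ring,
      ← Real.log_sqrt hx0.le, Real.exp_log (Real.sqrt_pos.2 hx0)]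
  have hq4 : 4 ≤ Real.exp (Real.log x / 4) := by
    have h1 : Real.log 4 ≤ Real.log x / 4 := by
      have h2 : Real.log 256 ≤ Real.log x := Real.log_le_log (by norm_num) hx
      have h3 : Real.log 256 = 4 * Real.log 4 := by
        rw [show (256 : ℝ) = 4 ^ 4 by norm_num, Real.log_pow]; norm_num
      linarith
    calc (4 : ℝ) = Real.exp (Real.log 4) := (Real.exp_log (by norm_num)).symm
      _ ≤ _ := Real.exp_le_exp.2 h1
  have hD0 : (1 : ℝ) ≤ D := by exact_mod_cast hD1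
  have hDle : (D : ℝ) ≤ Real.exp (Real.log x / 4) := by
    rw [← Real.exp_log (show (0 : ℝ) < D by linarith)]
    apply Real.exp_le_exp.2
    have := mul_le_mul_of_nonneg_right (min_le_right (ε / 4) (1 / 4)) hL0.le
    linarith
  have hDp : (D : ℝ) + 1 < p := by
    rw [hsq] at hp
    nlinarith
  have hDp' : D + 1 < p := by exact_mod_cast hDp
  refine ⟨hDp', ?_⟩
  have hp1 : 1 ≤ p - 1 := by omega
  have hv1 : 1 ≤ (p - 1) * D := Nat.mul_pos (by omega) (by omega)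
  have hvr : (1 : ℝ) ≤ (((p - 1) * D : ℕ) : ℝ) := by exact_mod_cast hv1
  have hvp : (p : ℝ) ≤ (((p - 1) * D : ℕ) : ℝ) + 1 := by
    have h1 : p ≤ (p - 1) * D + 1 := by
      have := Nat.le_mul_of_pos_right (p - 1) (show 0 < D by omega)
      omega
    exact_mod_cast h1
  have hp0 : (0 : ℝ) < p := by linarith
  have hsq2 : 2 ≤ √x := by rw [hsq]; nlinarith
  have hlv : Real.log x / 4 ≤ Real.log (((p - 1) * D : ℕ) : ℝ) := by
    have h1 : √x / 2 ≤ (((p - 1) * D : ℕ) : ℝ) := by linarith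
    have h2 : Real.log (√x / 2) ≤ Real.log (((p - 1) * D : ℕ) : ℝ) :=
      Real.log_le_log (by linarith) h1
    rw [Real.log_div (by linarith) (by norm_num), Real.log_sqrt hx0.le] at h2
    linarith
  have hlv2 : Real.log (((p - 1) * D : ℕ) : ℝ) ≤ Real.log p + Real.log D := by
    rw [← Real.log_mul (by linarith) (by linarith)]
    refine Real.log_le_log (by linarith) ?_
    have h1 : (p - 1) * D ≤ p * D := Nat.mul_le_mul_right _ (Nat.sub_le _ _)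
    exact_mod_cast h1
  rw [Real.rpow_def_of_pos (by linarith)]
  calc Real.exp (Real.log (((p - 1) * D : ℕ) : ℝ) * (1 - ε)) ≤ Real.exp (Real.log p) := by
        apply Real.exp_le_exp.2
        have h1 := mul_le_mul_of_nonneg_right (min_le_left (ε / 4) (1 / 4)) hL0.le
        have h2 := mul_le_mul_of_nonneg_left hlv hε.le
        nlinarith
    _ = p := Real.exp_log hp0

theorem scale_of {M : ℕ} (hM : 100 ≤ M) {x T : ℝ} (hx : 3 ≤ x)
    (hT : |ll x - (M : ℝ) ^ 15 - T| ≤ 1) (hT1 : 1 / 2 * (M : ℝ) ^ 20 ≤ T)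
    (hT2 : T ≤ 41 / 20 * (M : ℝ) ^ 20) : VLow.Scale M x ∧ 256 ≤ x := by
  have hM100 : (100 : ℝ) ≤ M := by exact_mod_cast hM
  have hM1 : (1 : ℝ) ≤ M := by linarith
  obtain ⟨ha, hb⟩ := abs_le.1 hT
  have p1 : (1 : ℝ) ≤ (M : ℝ) ^ 15 := one_le_pow₀ hM1
  have p2 : (M : ℝ) ^ 15 ≤ (M : ℝ) ^ 19 := pow_le_pow_right₀ hM1 (by norm_num)
  have p4 : (M : ℝ) ^ 20 = M * (M : ℝ) ^ 19 := by ring
  have p5 : 100 * (M : ℝ) ^ 19 ≤ (M : ℝ) ^ 20 := by
    rw [p4]; gcongr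
  have hlo : (M : ℝ) ^ 19 ≤ ll x := by linarith
  refine ⟨⟨hx, hlo, by linarith⟩, ?_⟩
  have hlogx : 0 < Real.log x := Real.log_pos (by linarith)
  have h1 : (100 : ℝ) ≤ ll x := by
    have : (M : ℝ) ≤ (M : ℝ) ^ 19 := le_self_pow₀ hM1 (by norm_num)
    linarith
  have h2 := Real.add_one_le_exp (ll x)
  rw [VLow.exp_ll hlogx] at h2
  have h3 : Real.log 256 ≤ Real.log x := by
    have h4 : Real.log 256 = 8 * Real.log 2 := by
      rw [show (256 : ℝ) = 2 ^ 8 by norm_num, Real.log_pow]; norm_num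
    have := Real.log_two_lt_d9
    linarith
  exact (Real.log_le_log_iff (by norm_num) (by linarith)).1 h3

open Classical in
theorem B1_le {M : ℕ} {x ε₁ y₀ : ℝ} (hε₁ : 0 < ε₁) (hN : VLow.Num 0 M ε₁ y₀)
    (hy₀ : ∀ y : ℝ, y₀ ≤ y → y / (2 * Real.log y) ≤ (Nat.primeCounting (⌊y⌋₊ + 1) : ℝ))
    (hnp : VLow.NpAt M) (hs : VLow.Scale M x) (F : Finset ℕ)
    (hFsub : ∀ D ∈ F, D ∈ DF M 0 1 (ll x - 3 * (M : ℝ) ^ 18)) :
    (((Prs F x).filter (fun a => a.1 ∉ VLow.GP M x a.2)).card : ℝ) ≤ ε₁ / 2 * (Prs F x).card := by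
  rw [card_Prs_filter, card_Prs, mul_sum]
  push_cast
  refine sum_le_sum fun D hD => ?_
  have g1 := (VLow.GP_ge hε₁ hN hy₀ hnp hs le_rfl (hFsub D hD)).2
  have g2 : ((Prm x D).filter (fun p => p ∉ VLow.GP M x D)).card +
      (VLow.GP M x D).card = (Prm x D).card := by
    have e1 : (Prm x D).filter (fun p => p ∈ VLow.GP M x D) = VLow.GP M x D := by
      ext p
      rw [mem_filter]
      constructor
      · exact fun h => h.2
      · intro h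
        refine ⟨?_, h⟩
        rw [VLow.mem_GP] at h
        exact mem_Prm.2 h.1
    have e2 := Finset.card_filter_add_card_filter_not (s := Prm x D)
      (p := fun p => p ∈ VLow.GP M x D)
    rw [e1] at e2
    omega
  have g3 : (((Prm x D).filter (fun p => p ∉ VLow.GP M x D)).card : ℝ) +
      (VLow.GP M x D).card = (Nat.primeCounting (⌊x / (D : ℝ)⌋₊ + 1) : ℝ) := by
    rw [← card_Prm]
    exact_mod_cast g2
  linarith

open Classical in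
theorem B2_le {M : ℕ} {x ε ε₁ y₀ : ℝ} (hM : 100 ≤ M) (hε : 0 < ε)
    (hN : VLow.Num 0 M ε₁ y₀) (hstep : VLow.StepAt M) (hcol : VLow.ColAt M)
    (hcl : ClAt M) (hth : ThAt M)
    (hnum : Real.log 2 + (M : ℝ) ^ 26 * Real.exp ((M : ℝ) ^ 15) ≤ Real.exp ((M : ℝ) ^ 19) / 2)
    (hs : VLow.Scale M x) (hx256 : 256 ≤ x) (F : Finset ℕ)
    (hFsub : ∀ D ∈ F, D ∈ DF M 0 1 (ll x - 3 * (M : ℝ) ^ 18))
    (hDF : ∀ D ∈ F, Real.log D ≤ min (ε / 4) (1 / 4) * Real.log x) :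
    (((Prs F x).filter (fun a => a.1 ∈ VLow.GP M x a.2 ∧ ¬ GPr ε x a)).card : ℝ) ≤
      x / Real.log x * Real.exp (-(M : ℝ) ^ 2) +
      2 * (x / Real.log x * Real.exp (-(M : ℝ) ^ 18 / 2)) := by
  have hM100 : (100 : ℝ) ≤ M := by exact_mod_cast hM
  have hM1 : (1 : ℝ) ≤ M := by linarith
  have hllx : ll x ≤ 5 * (M : ℝ) ^ 20 := by
    have := hs.hi
    have : (0 : ℝ) ≤ (M : ℝ) ^ 20 := by positivity
    linarith
  have hll16 : (M : ℝ) ^ 16 ≤ ll x :=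
    (pow_le_pow_right₀ hM1 (by norm_num)).trans hs.lo
  refine fail_at (by omega) hs.x3 hll16 hllx (small_le hs hnum) hcol hcl hth _ ?_
  intro a ha
  rw [mem_filter] at ha
  obtain ⟨ha1, ha2, ha3⟩ := ha
  obtain ⟨hD, hp⟩ := mem_Prs.1 ha1
  obtain ⟨g1, g2⟩ := VLow.PD_of_GP hN hstep hs le_rfl (hFsub _ hD) ha2
  have hsq : √x < (a.1 : ℝ) := ((VLow.mem_GP).1 ha2).2.1
  have hD1 : 1 ≤ a.2 := (mem_DF.1 (hFsub _ hD)).1.1
  obtain ⟨s1, s2⟩ := pair_sizes hε hx256 hD1 (hDF _ hD) hsq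
  exact ⟨g1, g2, hsq, fun htop => ha3 ⟨g2, htop, hD1, s1, hsq, s2⟩⟩

theorem num_fin {M : ℕ} {x V P b1 b2 ε ε₁ Cv : ℝ} (hM : 100 ≤ M) (hε : 0 < ε) (hCv : 0 < Cv)
    (hxl : 0 ≤ x / Real.log x) (hV2 : x / Real.log x ≤ Cv * V) (hV0 : 0 ≤ V) (hε₁1 : ε₁ ≤ 1)
    (hε₁ : 0 < ε₁) (hε₁ε : ε₁ ≤ ε / 4)
    (hexp : Real.exp (-(M : ℝ)) ≤ ε / (12 * Cv)) (hP : P ≤ V + ε₁ * V) (hb1 : b1 ≤ ε₁ / 2 * P)
    (hb2 : b2 ≤ x / Real.log x * Real.exp (-(M : ℝ) ^ 2) +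
      2 * (x / Real.log x * Real.exp (-(M : ℝ) ^ 18 / 2))) : b1 + b2 ≤ ε * V := by
  have hM100 : (100 : ℝ) ≤ M := by exact_mod_cast hM
  have hM1 : (1 : ℝ) ≤ M := by linarith
  have hexp1 : Real.exp (-(M : ℝ) ^ 2) ≤ Real.exp (-(M : ℝ)) := by
    apply Real.exp_le_exp.2
    nlinarith
  have hexp2 : Real.exp (-(M : ℝ) ^ 18 / 2) ≤ Real.exp (-(M : ℝ)) := by
    apply Real.exp_le_exp.2
    have p2 : (M : ℝ) ^ 2 ≤ (M : ℝ) ^ 18 := pow_le_pow_right₀ hM1 (by norm_num)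
    nlinarith
  have h3 : b2 ≤ ε / 4 * V := by
    calc b2 ≤ _ := hb2
      _ ≤ x / Real.log x * Real.exp (-(M : ℝ)) + 2 * (x / Real.log x * Real.exp (-(M : ℝ))) := by
        gcongr
      _ = 3 * (x / Real.log x) * Real.exp (-(M : ℝ)) := by ring
      _ ≤ 3 * (Cv * V) * (ε / (12 * Cv)) := by gcongr
      _ = ε / 4 * V := by field_simp; ring
  have h4 : P ≤ 2 * V := by nlinarith
  have h5 : ε₁ / 2 * P ≤ ε₁ / 2 * (2 * V) := by gcongr
  have h6 : ε₁ * V ≤ ε / 4 * V := by gcongr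
  have h7 : 0 ≤ ε * V := by positivity
  linarith

theorem core : ∃ C₀ : ℝ, 4 ≤ C₀ ∧ ∀ ε : ℝ, 0 < ε → ∀ᶠ M : ℕ in atTop,
    ∀ (x T : ℝ), 3 ≤ x →
    |ll x - (M : ℝ) ^ 15 - T| ≤ 1 → 1 / 2 * (M : ℝ) ^ 20 ≤ T → T ≤ 41 / 20 * (M : ℝ) ^ 20 →
    |(Vale.Agent.P031.V x : ℝ) - (Prs (DF M 0 1 (T - C₀ * (M : ℝ) ^ 18)) x).card| ≤
      ε * Vale.Agent.P031.V x ∧
    ∃ B ⊆ Prs (DF M 0 1 (T - C₀ * (M : ℝ) ^ 18)) x, (B.card : ℝ) ≤ ε * Vale.Agent.P031.V x ∧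
      ∀ a ∈ Prs (DF M 0 1 (T - C₀ * (M : ℝ) ^ 18)) x, a ∉ B → GPr ε x a := by
  classical
  obtain ⟨C₀, Cv, hC₀, hCv, happ⟩ := Ap577.approx' up
    (low_of np_mass (col_use_mass_of (cl_mass_of cl_count))) (v_low_of np_count cl_count)
    (v_low_sharp_of np_count cl_count) (J3.v_growth_of th) v_bad th
  refine ⟨C₀, hC₀, fun ε hε => ?_⟩
  obtain ⟨ε₁, hε₁, hε₁1, hε₁ε⟩ : ∃ ε₁ : ℝ, 0 < ε₁ ∧ ε₁ ≤ 1 ∧ ε₁ ≤ ε / 4 :=
    ⟨min 1 (ε / 4), by positivity, min_le_left _ _, min_le_right _ _⟩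
  obtain ⟨y₀, hy₀⟩ := eventually_atTop.1 VLow.cheb_low
  have hexp : ∀ᶠ M : ℕ in atTop, Real.exp (-(M : ℝ)) ≤ ε / (12 * Cv) := by
    have := VLow.ev_pow_exp 0 (ε / (12 * Cv)) (by positivity)
    filter_upwards [this] with M hM
    simpa using hM
  filter_upwards [happ ε₁ hε₁, VLow.numeric 0 ε₁ y₀ hε₁, VLow.step_ev, np_count,
    col_use_count_of cl_count, cl_count, th_pre, num_small,
    DF_small (min (ε / 4) (1 / 4)) (by positivity), hexp, eventually_ge_atTop 100]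
    with M happ hN hstep hnp hcol hcl hth hnum hDF hexp hM x T hx hT hT1 hT2
  obtain ⟨hs, hx256⟩ := scale_of hM hx hT hT1 hT2
  obtain ⟨hV1, hV2⟩ := happ x T hx hT hT1 hT2
  have hM100 : (100 : ℝ) ≤ M := by exact_mod_cast hM
  have hM1 : (1 : ℝ) ≤ M := by linarith
  set F := DF M 0 1 (T - C₀ * (M : ℝ) ^ 18) with hF
  have hV0 : (0 : ℝ) ≤ Vale.Agent.P031.V x := Nat.cast_nonneg _
  have hcard : ((Prs F x).card : ℝ) = ∑ D ∈ F, pc1 (x / (D : ℝ)) := by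
    rw [card_Prs]
    refine Finset.sum_congr rfl fun D _ => ?_
    rw [pc1, Nat.floor_add_one (by positivity)]
  rw [← hcard] at hV1
  obtain ⟨hTa, hTb⟩ := abs_le.1 hT
  have hFsub : ∀ D ∈ F, D ∈ DF M 0 1 (ll x - 3 * (M : ℝ) ^ 18) := by
    intro D hD
    refine DF_mono ?_ hD
    have p1 : (1 : ℝ) ≤ (M : ℝ) ^ 15 := one_le_pow₀ hM1
    have p2 : (M : ℝ) ^ 15 ≤ (M : ℝ) ^ 18 := pow_le_pow_right₀ hM1 (by norm_num)
    nlinarith
  refine ⟨hV1.trans (mul_le_mul_of_nonneg_right (by linarith) hV0),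
    (Prs F x).filter (fun a => ¬ GPr ε x a), filter_subset _ _, ?_, ?_⟩
  swap
  · intro a ha hab
    by_contra hc
    exact hab (mem_filter.2 ⟨ha, hc⟩)
  have hsplit : (((Prs F x).filter (fun a => ¬ GPr ε x a)).card : ℝ) ≤
      ((Prs F x).filter (fun a => a.1 ∉ VLow.GP M x a.2)).card +
      ((Prs F x).filter (fun a => a.1 ∈ VLow.GP M x a.2 ∧ ¬ GPr ε x a)).card := by
    have h1 : (Prs F x).filter (fun a => ¬ GPr ε x a) ⊆
        (Prs F x).filter (fun a => a.1 ∉ VLow.GP M x a.2) ∪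
        (Prs F x).filter (fun a => a.1 ∈ VLow.GP M x a.2 ∧ ¬ GPr ε x a) := by
      intro a ha
      rw [mem_filter] at ha
      rw [mem_union, mem_filter, mem_filter]
      by_cases h : a.1 ∈ VLow.GP M x a.2
      · exact Or.inr ⟨ha.1, h, ha.2⟩
      · exact Or.inl ⟨ha.1, h⟩
    exact_mod_cast (card_le_card h1).trans (card_union_le _ _)
  have h1 := B1_le hε₁ hN hy₀ hnp hs F hFsub
  have h2 := B2_le hM hε hN hstep hcol hcl hth hnum hs hx256 F hFsub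
    (fun D hD => hDF x T C₀ D hx (by linarith) hT hD)
  have hxl : 0 ≤ x / Real.log x := div_nonneg (by linarith) hs.logpos.le
  have hP : ((Prs F x).card : ℝ) ≤ Vale.Agent.P031.V x + ε₁ * Vale.Agent.P031.V x := by
    have := (abs_le.1 hV1).1
    linarith
  exact hsplit.trans (num_fin hM hε hCv hxl hV2 hV0 hε₁1 hε₁ hε₁ε hexp hP h1 h2)

end Vale.Agent.P031.H577
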