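import Vale.Agent.P031.H577.Pairs

set_option linter.all false

namespace Vale.Agent.P031.H577

open Finset Filter Topology

theorem V_eq (x : ℝ) : V x = (Vale.Agent.P031.V x : ℝ) := rfl

theorem Top_unique {v P P' : ℕ} (hv : Tot v) (h : Top v P) (h' : Top v P') : P = P' := by
  obtain ⟨n, hn, hnv⟩ := hv
  exact le_antisymm ((h'.2 n hn hnv).2.2 P h.1 (h.2 n hn hnv).1)
    ((h.2 n hn hnv).2.2 P' h'.1 (h'.2 n hn hnv).1)

/-- data at one scale -/
def Data (ε x : ℝ) (F : Finset ℕ) : Prop :=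
  |V x - (Prs F x).card| ≤ ε * V x ∧
    ∃ B ⊆ Prs F x, (B.card : ℝ) ≤ ε * V x ∧ ∀ a ∈ Prs F x, a ∉ B → GPr ε x a

theorem exists_F (c : ℝ) (hc : 0 < c) (ε : ℝ) (hε : 0 < ε) (K : ℝ) :
    ∃ x₀ : ℝ, ∀ x : ℝ, x₀ ≤ x → ∃ F : Finset ℕ, (∀ d ∈ F, 1 ≤ d ∧ K ≤ x / d) ∧
      Data ε x F ∧ Data ε (c * x) F := by
  obtain ⟨C₀, hC₀, happ⟩ := core
  have h1 := happ ε hε
  have h2 := KA.DF_size
  obtain ⟨M₀, hM₀⟩ := eventually_atTop.1 ((h1.and h2).and (eventually_ge_atTop 100))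
  -- large x
  have hlim : Tendsto (fun x : ℝ => ll x) atTop atTop :=
    Real.tendsto_log_atTop.comp Real.tendsto_log_atTop
  have e1 : ∀ᶠ x : ℝ in atTop, ((M₀ : ℝ) + 1) ^ 20 ≤ ll x := hlim.eventually_ge_atTop _
  have e2 : ∀ᶠ x : ℝ in atTop, 3 ≤ c * x :=
    (tendsto_id.const_mul_atTop hc).eventually_ge_atTop 3
  have e3 : ∀ᶠ x : ℝ in atTop, 2 * |Real.log c| ≤ Real.log x :=
    Real.tendsto_log_atTop.eventually_ge_atTop _
  have e4 : ∀ᶠ x : ℝ in atTop, K ^ 2 ≤ x := eventually_ge_atTop _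
  obtain ⟨x₀, hx₀⟩ := eventually_atTop.1 (((e1.and e2).and (e3.and e4)).and
    (eventually_ge_atTop (3 : ℝ)))
  refine ⟨x₀, fun x hx => ?_⟩
  obtain ⟨⟨⟨g1, g2⟩, g3, g4⟩, g5⟩ := hx₀ x hx
  obtain ⟨M, hM0, hMx, hxM⟩ := KA.exists_M x M₀ g1
  obtain ⟨⟨h1, h2⟩, h3⟩ := hM₀ M hM0
  have hM100 : (100 : ℝ) ≤ M := by exact_mod_cast h3
  have hM1 : (1 : ℝ) ≤ M := by linarith only [hM100]
  have hlogx : 0 < Real.log x := Real.log_pos (by linarith only [g5])
  -- comparison of ll x and ll (c x)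
  have hcx : |ll (c * x) - ll x| ≤ 1 := by
    have hlc : Real.log (c * x) = Real.log c + Real.log x :=
      Real.log_mul hc.ne' (by linarith)
    have ha := neg_abs_le (Real.log c)
    have hb := le_abs_self (Real.log c)
    have hpos : 0 < Real.log c + Real.log x := by linarith only [g3, hlogx, ha]
    have h4 : ll (c * x) - ll x = Real.log ((Real.log c + Real.log x) / Real.log x) := by
      rw [ll, ll, hlc, Real.log_div hpos.ne' hlogx.ne']
    have h5 : (Real.log c + Real.log x) / Real.log x ≤ 3 / 2 := by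
      rw [div_le_iff₀ hlogx]; linarith only [hb, g3]
    have h6 : 1 / 2 ≤ (Real.log c + Real.log x) / Real.log x := by
      rw [le_div_iff₀ hlogx]; linarith only [g3, ha]
    rw [h4, abs_le]
    constructor
    · have h7 : Real.log (1 / 2) ≤ Real.log ((Real.log c + Real.log x) / Real.log x) :=
        Real.log_le_log (by norm_num) h6
      have h8 : -1 ≤ Real.log (1 / 2) := by
        rw [Real.le_log_iff_exp_le (by norm_num)]
        have := Real.exp_neg_one_lt_d9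
        linarith only [this]
      linarith only [h7, h8]
    · have h7 : Real.log ((Real.log c + Real.log x) / Real.log x) ≤ Real.log (3 / 2) :=
        Real.log_le_log (by linarith only [h6]) h5
      have h8 : Real.log (3 / 2) ≤ 3 / 2 - 1 := Real.log_le_sub_one_of_pos (by norm_num)
      linarith only [h7, h8]
  have h20 : ((M : ℝ) + 1) ^ 20 ≤ 41 / 20 * (M : ℝ) ^ 20 := by
    have h4 : (M : ℝ) + 1 ≤ 101 / 100 * M := by linarith only [hM100]
    calc ((M : ℝ) + 1) ^ 20 ≤ (101 / 100 * M) ^ 20 := by gcongr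
      _ = (101 / 100) ^ 20 * (M : ℝ) ^ 20 := by rw [mul_pow]
      _ ≤ 41 / 20 * (M : ℝ) ^ 20 := by gcongr; norm_num
  have h1520 : 2 * (M : ℝ) ^ 15 ≤ (M : ℝ) ^ 20 := by
    calc 2 * (M : ℝ) ^ 15 ≤ M * (M : ℝ) ^ 15 := by gcongr; linarith only [hM100]
      _ = (M : ℝ) ^ 16 := by ring
      _ ≤ (M : ℝ) ^ 20 := pow_le_pow_right₀ hM1 (by norm_num)
  have h15 : 0 < (M : ℝ) ^ 15 := by positivity
  obtain ⟨T, hT⟩ : ∃ T : ℝ, T = ll x - (M : ℝ) ^ 15 := ⟨_, rfl⟩
  have hT1 : |ll x - (M : ℝ) ^ 15 - T| ≤ 1 := by rw [hT]; simp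
  have hT2 : |ll (c * x) - (M : ℝ) ^ 15 - T| ≤ 1 := by
    rw [hT]
    have : ll (c * x) - (M : ℝ) ^ 15 - (ll x - (M : ℝ) ^ 15) = ll (c * x) - ll x := by ring
    rw [this]; exact hcx
  refine ⟨DF M 0 1 (T - C₀ * (M : ℝ) ^ 18), fun d hd => ⟨KA.mem_DF_pos hd, ?_⟩, ?_, ?_⟩
  · have hs := h2 x T C₀ d g5 (by linarith) hT1 hd
    have hd1 : (0 : ℝ) < d := by exact_mod_cast KA.mem_DF_pos hd
    have hx0 : 0 < x := by linarith only [g5]
    have hs2 : (d : ℝ) ≤ Real.sqrt x := by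
      rw [← Real.exp_log hd1, ← Real.exp_log (Real.sqrt_pos.2 hx0)]
      apply Real.exp_le_exp.2
      rw [Real.log_sqrt hx0.le]
      exact hs
    have hK : K ≤ Real.sqrt x := Real.le_sqrt_of_sq_le g4
    rw [le_div_iff₀ hd1]
    have hs0 : 0 ≤ Real.sqrt x := Real.sqrt_nonneg x
    calc K * d ≤ Real.sqrt x * Real.sqrt x := by
          by_cases hK0 : 0 ≤ K
          · gcongr
          · push Not at hK0
            have : K * d ≤ 0 := by nlinarith only [hK0]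
            nlinarith only [this]
      _ = x := Real.mul_self_sqrt hx0.le
  · exact h1 x T g5 hT1 (by linarith only [hT, hMx, h1520]) (by linarith only [hT, h20, hxM, h15])
  · exact h1 (c * x) T g2 hT2 (by linarith only [hT, hMx, h1520]) (by linarith only [hT, h20, hxM, h15])

theorem fin_tot (x : ℝ) (Q : ℕ → Prop) : {v : ℕ | Tot v ∧ (v : ℝ) ≤ x ∧ Q v}.Finite := by
  refine (Set.finite_Iic ⌊x⌋₊).subset ?_
  rintro v ⟨-, hv, -⟩
  exact Nat.le_floor hv

theorem fin_tot' (x : ℝ) : {v : ℕ | Tot v ∧ (v : ℝ) ≤ x}.Finite := by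
  refine (Set.finite_Iic ⌊x⌋₊).subset ?_
  rintro v ⟨-, hv⟩
  exact Nat.le_floor hv

theorem val_le {x : ℝ} (hx : 0 ≤ x) {F : Finset ℕ} {a : ℕ × ℕ} (ha : a ∈ Prs F x) (h1 : 1 ≤ a.2) :
    (((a.1 - 1) * a.2 : ℕ) : ℝ) ≤ x := by
  obtain ⟨hD, hp⟩ := mem_Prs.1 ha
  obtain ⟨hp1, hp2⟩ := mem_Prm.1 hp
  have hD0 : (0 : ℝ) < a.2 := by exact_mod_cast h1
  have h2 : a.1 - 1 ≤ ⌊x / (a.2 : ℝ)⌋₊ := by omega
  have h3 : ((a.1 - 1 : ℕ) : ℝ) ≤ x / a.2 :=
    le_trans (by exact_mod_cast h2) (Nat.floor_le (by positivity))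
  push_cast
  calc ((a.1 - 1 : ℕ) : ℝ) * a.2 ≤ x / a.2 * a.2 := by gcongr
    _ = x := by field_simp

open Classical in
/-- number of pairs with the property `R` -/
noncomputable def cntP (F : Finset ℕ) (x : ℝ) (R : ℕ × ℕ → Prop) : ℝ :=
  (((Prs F x).filter R).card : ℝ)

theorem cntP_eq (F : Finset ℕ) (x : ℝ) (R : ℕ × ℕ → Prop) [DecidablePred R] :
    cntP F x R = (((Prs F x).filter R).card : ℝ) := by
  unfold cntP
  congr 2
  ext a
  simp only [mem_filter]

theorem cntP_true (F : Finset ℕ) (x : ℝ) : cntP F x (fun _ => True) = (Prs F x).card := by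
  rw [cntP_eq, Finset.filter_true]

/-- **Transfer**: counting totients with a property `Q` through the pairs. -/
theorem transfer {ε x : ℝ} {F : Finset ℕ} (hx : 0 ≤ x) (hF : Data ε x F)
    (Q : ℕ → Prop) (R : ℕ × ℕ → Prop)
    (hQR : ∀ a : ℕ × ℕ, a ∈ Prs F x → GPr ε x a → (Q ((a.1 - 1) * a.2) ↔ R a)) :
    |W Q x - cntP F x R| ≤ 2 * ε * V x := by
  classical
  rw [cntP_eq]
  obtain ⟨h1, B, hBsub, hB, hgood⟩ := hF
  set f : ℕ × ℕ → ℕ := fun a => (a.1 - 1) * a.2 with hf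
  set G : Finset (ℕ × ℕ) := Prs F x \ B with hG
  have hGg : ∀ a ∈ G, a ∈ Prs F x ∧ GPr ε x a := by
    intro a ha
    rw [hG, Finset.mem_sdiff] at ha
    exact ⟨ha.1, hgood a ha.1 ha.2⟩
  have hinj : Set.InjOn f (G : Set (ℕ × ℕ)) := by
    intro a ha b hb hab
    obtain ⟨-, ga⟩ := hGg a ha
    obtain ⟨-, gb⟩ := hGg b hb
    simp only [hf] at hab
    have hp : a.1 = b.1 := Top_unique ga.tot ga.top (hab ▸ gb.top)
    rw [← hp] at hab
    have h2 : 0 < a.1 - 1 := by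
      have := ga.top.1.two_le
      omega
    exact Prod.ext hp (Nat.eq_of_mul_eq_mul_left h2 hab)
  -- finite sets
  set SV : Finset ℕ := (fin_tot' x).toFinset with hSV
  set SQ : Finset ℕ := (fin_tot x Q).toFinset with hSQ
  have hVc : V x = SV.card := by
    unfold V
    rw [Set.ncard_eq_toFinset_card _ (fin_tot' x)]
  have hQc : W Q x = SQ.card := by
    unfold W
    rw [Set.ncard_eq_toFinset_card _ (fin_tot x Q)]
  have hmSV : ∀ v, v ∈ SV ↔ Tot v ∧ (v : ℝ) ≤ x := by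
    intro v; rw [hSV, Set.Finite.mem_toFinset]; rfl
  have hmSQ : ∀ v, v ∈ SQ ↔ Tot v ∧ (v : ℝ) ≤ x ∧ Q v := by
    intro v; rw [hSQ, Set.Finite.mem_toFinset]; rfl
  have himg : G.image f ⊆ SV := by
    intro v hv
    obtain ⟨a, ha, rfl⟩ := mem_image.1 hv
    obtain ⟨g1, g2⟩ := hGg a ha
    exact (hmSV _).2 ⟨g2.tot, val_le hx g1 g2.one⟩
  have hlow : (G.filter R).image f ⊆ SQ := by
    intro v hv
    obtain ⟨a, ha, rfl⟩ := mem_image.1 hv
    rw [mem_filter] at ha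
    obtain ⟨g1, g2⟩ := hGg a ha.1
    exact (hmSQ _).2 ⟨g2.tot, val_le hx g1 g2.one, (hQR a g1 g2).2 ha.2⟩
  have hupp : SQ ⊆ (G.filter R).image f ∪ (SV \ G.image f) := by
    intro v hv
    obtain ⟨h2, h3, h4⟩ := (hmSQ v).1 hv
    rw [mem_union, Finset.mem_sdiff]
    by_cases h5 : v ∈ G.image f
    · left
      obtain ⟨a, ha, rfl⟩ := mem_image.1 h5
      obtain ⟨g1, g2⟩ := hGg a ha
      exact mem_image.2 ⟨a, mem_filter.2 ⟨ha, (hQR a g1 g2).1 h4⟩, rfl⟩
    · exact Or.inr ⟨(hmSV v).2 ⟨h2, h3⟩, h5⟩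
  have c1 : ((G.filter R).image f).card = (G.filter R).card :=
    card_image_of_injOn (hinj.mono (by
      intro a ha
      exact (mem_filter.1 ha).1))
  have c2 : (G.image f).card = G.card := card_image_of_injOn hinj
  have c3 : (G.card : ℝ) + B.card = (Prs F x).card := by
    have := Finset.card_sdiff_add_card_eq_card hBsub
    exact_mod_cast this
  have c4 : ((SV \ G.image f).card : ℝ) + G.card = SV.card := by
    have := Finset.card_sdiff_add_card_eq_card himg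
    rw [c2] at this
    exact_mod_cast this
  have c5 : (((Prs F x).filter R).card : ℝ) ≤ (G.filter R).card + B.card := by
    have h2 : (Prs F x).filter R ⊆ G.filter R ∪ B := by
      intro a ha
      rw [mem_filter] at ha
      rw [mem_union, mem_filter, hG, Finset.mem_sdiff]
      by_cases h : a ∈ B
      · exact Or.inr h
      · exact Or.inl ⟨⟨ha.1, h⟩, ha.2⟩
    exact_mod_cast (card_le_card h2).trans (card_union_le _ _)
  have c6 : ((G.filter R).card : ℝ) ≤ ((Prs F x).filter R).card := by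
    have h2 : G.filter R ⊆ (Prs F x).filter R := by
      intro a ha
      rw [mem_filter] at ha ⊢
      exact ⟨(hGg a ha.1).1, ha.2⟩
    exact_mod_cast card_le_card h2
  have c7 : ((G.filter R).card : ℝ) ≤ SQ.card := by
    have := card_le_card hlow
    rw [c1] at this
    exact_mod_cast this
  have c8 : (SQ.card : ℝ) ≤ (G.filter R).card + (SV \ G.image f).card := by
    have := (card_le_card hupp).trans (card_union_le _ _)
    rw [c1] at this
    exact_mod_cast this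
  have hV0 : 0 ≤ V x := by unfold V; positivity
  obtain ⟨a1, a2⟩ := abs_le.1 h1
  rw [hQc, abs_le]
  have hB0 : (0 : ℝ) ≤ B.card := Nat.cast_nonneg _
  constructor <;> linarith

end Vale.Agent.P031.H577
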